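import Vale.Agent.P302.Search

namespace Vale.Agent.P302

open Multiset

/-- the instance with integer sizes `items` and integer bin capacity `L`, rescaled to capacity `1` -/
def mkInst (L : ℕ) (items : List ℕ) : Multiset ℚ :=
  ((items.map (fun n : ℕ => (n : ℚ) / (L : ℚ)) : List ℚ) : Multiset ℚ)

theorem card_le_three {L : ℕ} (s : Multiset ℕ) (h4 : ∀ x ∈ s, L < 4 * x) (hs : s.sum ≤ L) :
    card s ≤ 3 := by
  by_contra hc
  have h1 : card (s.map (fun x => 4 * x)) • (L + 1) ≤ (s.map (fun x => 4 * x)).sum := by
    apply Multiset.card_nsmul_le_sum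
    intro y hy
    obtain ⟨x, hx, rfl⟩ := Multiset.mem_map.1 hy
    exact h4 x hx
  have h2 : (s.map (fun x => 4 * x)).sum = 4 * s.sum := by
    rw [Multiset.sum_map_mul_left]; simp
  rw [h2] at h1
  simp at h1
  have h3 : 4 ≤ card s := by omega
  nlinarith

theorem sum_map_div (L : ℕ) (s : Multiset ℕ) :
    (s.map (fun n : ℕ => (n : ℚ) / (L : ℚ))).sum = (s.sum : ℚ) / (L : ℚ) := by
  induction s using Multiset.induction_on with
  | empty => simp
  | cons a s ih => simp [ih, add_div]

theorem holes_eq (B : Multiset (Multiset ℕ)) (h : ∀ b ∈ B, card b ≤ 3) :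
    (B.map (fun b => 3 - card b)).sum + card B.sum = 3 * card B := by
  induction B using Multiset.induction_on with
  | empty => simp
  | cons b B ih =>
    have h1 := h b (Multiset.mem_cons_self _ _)
    have h2 := ih (fun b hb => h b (Multiset.mem_cons_of_mem hb))
    simp only [Multiset.map_cons, Multiset.sum_cons, Multiset.card_add, Multiset.card_cons]
    omega

theorem not_packs_of_search (L : ℕ) (hL : 0 < L) (items : List ℕ) (k : ℕ)
    (hbig : ∀ x ∈ items, L < 4 * x)
    (hs : search L items.length items (3 * k - items.length) = false) :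
    ¬ Packs (mkInst L items) k := by
  rintro ⟨B, hc, hsum, hb⟩
  have hLq : (L : ℚ) ≠ 0 := by exact_mod_cast hL.ne'
  let fq : ℕ → ℚ := fun n => (n : ℚ) / (L : ℚ)
  let g : ℚ → ℕ := fun q => ⌊q * (L : ℚ)⌋₊
  have hgf : ∀ n : ℕ, g (fq n) = n := by
    intro n
    simp only [g, fq]
    rw [div_mul_cancel₀ _ hLq]
    exact Nat.floor_natCast n
  have hI : mkInst L items = (items : Multiset ℕ).map fq := by
    simp [mkInst, fq]
  let B' : Multiset (Multiset ℕ) := B.map (Multiset.map g)
  have hsum' : B'.sum = (items : Multiset ℕ) := by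
    have h1 : B'.sum = (B.sum).map g := by
      have := Multiset.map_join g B
      simpa [Multiset.join, B'] using this.symm
    rw [h1, hsum, hI, Multiset.map_map]
    have : (items : Multiset ℕ).map (g ∘ fq) = (items : Multiset ℕ).map id := by
      apply Multiset.map_congr rfl
      intro x _
      simp [hgf]
    rw [this, Multiset.map_id]
  have hmem : ∀ b ∈ B, ∀ q ∈ b, ∃ n ∈ items, q = fq n := by
    intro b hbB q hq
    have : q ∈ B.sum := Multiset.mem_join.2 ⟨b, hbB, hq⟩
    rw [hsum, hI] at this
    obtain ⟨n, hn, rfl⟩ := Multiset.mem_map.1 this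
    exact ⟨n, by simpa using hn, rfl⟩
  have hB' : ∀ b' ∈ B', b'.sum ≤ L ∧ card b' ≤ 3 := by
    intro b' hb'
    obtain ⟨b, hbB, rfl⟩ := Multiset.mem_map.1 hb'
    have hback : (b.map g).map fq = b := by
      rw [Multiset.map_map]
      have : b.map (fq ∘ g) = b.map id := by
        apply Multiset.map_congr rfl
        intro q hq
        obtain ⟨n, _, rfl⟩ := hmem b hbB q hq
        simp [hgf]
      rw [this, Multiset.map_id]
    have hle : ((b.map g).sum : ℚ) / (L : ℚ) ≤ 1 := by
      have h0 := hb b hbB
      rw [← hback] at h0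
      have h1 := sum_map_div L (b.map g)
      rw [← h1]
      exact h0
    have hle' : (b.map g).sum ≤ L := by
      rw [div_le_one (by exact_mod_cast hL)] at hle
      exact_mod_cast hle
    refine ⟨hle', card_le_three _ ?_ hle'⟩
    intro x hx
    obtain ⟨q, hq, rfl⟩ := Multiset.mem_map.1 hx
    obtain ⟨n, hn, rfl⟩ := hmem b hbB q hq
    rw [hgf]
    exact hbig n hn
  have hholes := holes_eq B' (fun b hb => (hB' b hb).2)
  have hcB' : card B' = k := by simp [B', hc]
  rw [hsum', hcB'] at hholes
  have hP : Packs3 L (items : Multiset ℕ) (3 * k - items.length) := by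
    refine ⟨B', hsum', hB', ?_⟩
    simp at hholes
    omega
  have := search_of_packs3 L items.length items _ le_rfl hP
  rw [hs] at this
  exact Bool.false_ne_true this

end Vale.Agent.P302
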