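import Vale.Agent.P302.Gen

namespace Vale.Agent.P302

open Multiset

/-- a packing of the rescaled instance gives a packing of the integer sizes -/
theorem packsNat_of_packs (L : ℕ) (hL : 0 < L) (items : List ℕ) (k : ℕ)
    (hbig : ∀ x ∈ items, L < 4 * x) (hP : Packs (mkInst L items) k) :
    ∃ B' : Multiset (Multiset ℕ), card B' = k ∧ B'.sum = (items : Multiset ℕ) ∧
      ∀ b ∈ B', b.sum ≤ L ∧ card b ≤ 3 := by
  obtain ⟨B, hc, hsum, hb⟩ := hP
  have hLq : (L : ℚ) ≠ 0 := by exact_mod_cast hL.ne'
  let fq : ℕ → ℚ := fun n => (n : ℚ) / (L : ℚ)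
  let g : ℚ → ℕ := fun q => ⌊q * (L : ℚ)⌋₊
  have hgf : ∀ n : ℕ, g (fq n) = n := by
    intro n
    simp only [g, fq]
    rw [div_mul_cancel₀ _ hLq]
    exact Nat.floor_natCast n
  have hI : mkInst L items = (items : Multiset ℕ).map fq := by
    simp [mkInst, fq]
  let B' : Multiset (Multiset ℕ) := B.map (Multiset.map g)
  have hsum' : B'.sum = (items : Multiset ℕ) := by
    have h1 : B'.sum = (B.sum).map g := by
      have := Multiset.map_join g B
      simpa [Multiset.join, B'] using this.symm
    rw [h1, hsum, hI, Multiset.map_map]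
    have : (items : Multiset ℕ).map (g ∘ fq) = (items : Multiset ℕ).map id := by
      apply Multiset.map_congr rfl
      intro x _
      simp [hgf]
    rw [this, Multiset.map_id]
  have hmem : ∀ b ∈ B, ∀ q ∈ b, ∃ n ∈ items, q = fq n := by
    intro b hbB q hq
    have : q ∈ B.sum := Multiset.mem_join.2 ⟨b, hbB, hq⟩
    rw [hsum, hI] at this
    obtain ⟨n, hn, rfl⟩ := Multiset.mem_map.1 this
    exact ⟨n, by simpa using hn, rfl⟩
  have hB' : ∀ b' ∈ B', b'.sum ≤ L ∧ card b' ≤ 3 := by
    intro b' hb'
    obtain ⟨b, hbB, rfl⟩ := Multiset.mem_map.1 hb'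
    have hback : (b.map g).map fq = b := by
      rw [Multiset.map_map]
      have : b.map (fq ∘ g) = b.map id := by
        apply Multiset.map_congr rfl
        intro q hq
        obtain ⟨n, _, rfl⟩ := hmem b hbB q hq
        simp [hgf]
      rw [this, Multiset.map_id]
    have hle : ((b.map g).sum : ℚ) / (L : ℚ) ≤ 1 := by
      have h0 := hb b hbB
      rw [← hback] at h0
      have h1 := sum_map_div L (b.map g)
      rw [← h1]
      exact h0
    have hle' : (b.map g).sum ≤ L := by
      rw [div_le_one (by exact_mod_cast hL)] at hle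
      exact_mod_cast hle
    refine ⟨hle', card_le_three _ ?_ hle'⟩
    intro x hx
    obtain ⟨q, hq, rfl⟩ := Multiset.mem_map.1 hx
    obtain ⟨n, hn, rfl⟩ := hmem b hbB q hq
    rw [hgf]
    exact hbig n hn
  exact ⟨B', by simp [B', hc], hsum', hB'⟩

theorem card_sum_le (B : Multiset (Multiset ℕ)) (h : ∀ b ∈ B, card b ≤ 3) :
    card B.sum ≤ 2 * card B + card (B.filter (fun b => card b = 3)) := by
  induction B using Multiset.induction_on with
  | empty => simp
  | cons b B ih =>
    have h1 := h b (Multiset.mem_cons_self _ _)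
    have h2 := ih (fun b hb => h b (Multiset.mem_cons_of_mem hb))
    by_cases hb : card b = 3
    · have hf : Multiset.filter (fun b => card b = 3) (b ::ₘ B) =
          b ::ₘ Multiset.filter (fun b => card b = 3) B := by
        simp [hb]
      rw [hf]
      simp only [Multiset.sum_cons, Multiset.card_add, Multiset.card_cons]
      omega
    · have hf : Multiset.filter (fun b => card b = 3) (b ::ₘ B) =
          Multiset.filter (fun b => card b = 3) B := by
        simp [hb]
      rw [hf]
      simp only [Multiset.sum_cons, Multiset.card_add, Multiset.card_cons]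
      omega

theorem sum_map_sub (c0 : ℕ) (b : Multiset ℕ) (h : ∀ x ∈ b, x ≤ c0) :
    (b.map (fun s => c0 - s)).sum + b.sum = card b * c0 := by
  induction b using Multiset.induction_on with
  | empty => simp
  | cons a b ih =>
    have h1 := h a (Multiset.mem_cons_self _ _)
    have h2 := ih (fun x hx => h x (Multiset.mem_cons_of_mem hx))
    simp only [Multiset.map_cons, Multiset.sum_cons, Multiset.card_cons]
    have : (card b + 1) * c0 = card b * c0 + c0 := by ring
    omega

theorem sum_map_map (g : ℕ → ℕ) (B : Multiset (Multiset ℕ)) :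
    (B.map (fun b => b.map g)).sum = B.sum.map g := by
  induction B using Multiset.induction_on with
  | empty => simp
  | cons b B ih => simp [ih]

/-- a packing into few bins needs many bins with three items; in the complementary values
`c0 - size` these are blocks -/
theorem cov_of_packs (L c0 Θ : ℕ) (hL : 0 < L) (items : List ℕ) (k : ℕ)
    (hbig : ∀ x ∈ items, L < 4 * x) (hc0 : ∀ x ∈ items, x ≤ c0) (hΘ : L + Θ ≤ 3 * c0)
    (hP : Packs (mkInst L items) k) :
    Cov Θ ((items.map (fun s => c0 - s) : List ℕ) : Multiset ℕ) (items.length - 2 * k) := by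
  obtain ⟨B, hc, hsum, hB⟩ := packsNat_of_packs L hL items k hbig hP
  have h1 := card_sum_le B (fun b hb => (hB b hb).2)
  rw [hsum, hc] at h1
  simp only [Multiset.coe_card] at h1
  have hF : Multiset.filter (fun b => card b = 3) B ≤ B := Multiset.filter_le _ _
  have hcov : Cov Θ ((items.map (fun s => c0 - s) : List ℕ) : Multiset ℕ)
      (card (B.filter (fun b => card b = 3))) := by
    refine ⟨(B.filter (fun b => card b = 3)).map (fun b => b.map (fun s => c0 - s)), by simp, ?_, ?_⟩
    · rw [sum_map_map]
      have h2 : (B.filter (fun b => card b = 3)).sum ≤ B.sum := by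
        conv_rhs => rw [← Multiset.filter_add_not (fun b => card b = 3) B]
        rw [Multiset.sum_add]
        exact Multiset.le_add_right _ _
      have h3 := Multiset.map_le_map (f := fun s => c0 - s) h2
      rw [hsum] at h3
      simpa using h3
    · intro b' hb'
      obtain ⟨b, hb, rfl⟩ := Multiset.mem_map.1 hb'
      obtain ⟨hbB, hb3⟩ := Multiset.mem_filter.1 hb
      have hmem : ∀ x ∈ b, x ≤ c0 := by
        intro x hx
        have : x ∈ B.sum := Multiset.mem_join.2 ⟨b, hbB, hx⟩
        rw [hsum] at this
        exact hc0 x (by simpa using this)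
      have h4 := sum_map_sub c0 b hmem
      have h5 := (hB b hbB).1
      rw [hb3] at h4
      refine ⟨by simp [hb3], ?_⟩
      omega
  exact Cov.le (by omega) hcov

/-- bounds for three values of `j` give bounds for all `j` -/
theorem hV3 {Θ : ℕ} (R : List ℕ) (v0 v1 v2 : ℕ)
    (h0 : ¬ Cov Θ ((R.drop 0 : List ℕ) : Multiset ℕ) (v0 + 1))
    (h1 : ¬ Cov Θ ((R.drop 1 : List ℕ) : Multiset ℕ) (v1 + 1))
    (h2 : ¬ Cov Θ ((R.drop 2 : List ℕ) : Multiset ℕ) (v2 + 1)) :
    ∀ j, ¬ Cov Θ ((R.drop j : List ℕ) : Multiset ℕ)
      ((fun j => match j with | 0 => v0 | 1 => v1 | _ => v2) j + 1) := by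
  intro j
  match j with
  | 0 => exact h0
  | 1 => exact h1
  | j + 2 =>
    intro hc
    apply h2
    refine hc.mono ?_
    have : (R.drop (j + 2)).Sublist (R.drop 2) := by
      rw [show j + 2 = j + 2 from rfl, add_comm, ← List.drop_drop]
      exact List.drop_sublist _ _
    exact Multiset.coe_le.2 this.subperm

end Vale.Agent.P302
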