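import Vale.Agent.P302.Bridge2

namespace Vale.Agent.P302

open Multiset

theorem not_cov_zero {Θ : ℕ} (hΘ : 0 < Θ) (k : ℕ) : ¬ Cov Θ (0 : Multiset ℕ) (k + 1) := by
  rintro ⟨B, hc, hle, hb⟩
  have hs : B.sum = 0 := by simpa using hle
  obtain ⟨b, hbB⟩ : ∃ b, b ∈ B := by
    apply Multiset.card_pos_iff_exists_mem.1
    omega
  have h1 : b ≤ B.sum := Multiset.le_sum_of_mem hbB
  rw [hs] at h1
  have h2 : b = 0 := by simpa using h1
  have h3 := (hb b hbB).2
  rw [h2] at h3
  simp at h3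
  omega

/-- one level of the chain: a certificate of the search bounds the level together with all the
coarser ones -/
theorem level_bound {Θ M : ℕ} {V : ℕ → ℕ} {R : List ℕ} (hM : 0 < M) (hΘ : M ∣ Θ)
    (hR : ∀ r ∈ R, M ∣ r) (hRs : R.Pairwise (· ≤ ·))
    (hV : ∀ j, ¬ Cov Θ ((R.drop j : List ℕ) : Multiset ℕ) (V j + 1))
    (f : ℕ) (items : List ℕ) (need : ℕ) (R' : List ℕ) (hlt : ∀ x ∈ items, x < Θ)
    (hg : gen Θ M V R.length f items 0 need = false) (hperm : R'.Perm (items ++ R)) :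
    ¬ Cov Θ ((R' : List ℕ) : Multiset ℕ) need := by
  have h := gen_sound hM hΘ hR hRs hV f items 0 need hlt hg
  rw [List.drop_zero, Multiset.coe_add] at h
  rwa [Multiset.coe_eq_coe.2 hperm]

/-- the coarsest level -/
theorem top_bound {Θ : ℕ} (hΘ : 0 < Θ)
    (f : ℕ) (items : List ℕ) (need : ℕ) (R' : List ℕ) (hlt : ∀ x ∈ items, x < Θ)
    (hg : gen Θ 1 (fun _ => 0) 0 f items 0 need = false) (hperm : R'.Perm items) :
    ¬ Cov Θ ((R' : List ℕ) : Multiset ℕ) need := by
  refine level_bound (M := 1) (V := fun _ => 0) (R := []) one_pos (one_dvd _) (by simp) (by simp)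
    ?_ f items need R' hlt hg (by simpa using hperm)
  intro j
  simpa using not_cov_zero hΘ 0

/-- items of value zero are useless -/
theorem cov_drop_zeros {Θ : ℕ} (n : ℕ) (R : List ℕ) (k : ℕ)
    (h : Cov Θ ((List.replicate n 0 ++ R : List ℕ) : Multiset ℕ) k) :
    Cov Θ ((R : List ℕ) : Multiset ℕ) k := by
  rw [← Multiset.coe_add] at h
  refine Cov.negl (M := 1) one_pos (one_dvd _) (fun r _ => one_dvd r) ?_ h
  intro t ht
  have : t = 0 := by
    have := List.eq_of_mem_replicate (by simpa using ht)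
    exact this
  omega

theorem isInstance_mkInst (L : ℕ) (items : List ℕ) (hL : 0 < L)
    (h : ∀ x ∈ items, 0 < x ∧ x ≤ L) : IsInstance (mkInst L items) := by
  intro q hq
  simp only [mkInst, Multiset.mem_coe, List.mem_map] at hq
  obtain ⟨n, hn, rfl⟩ := hq
  have hLq : (0 : ℚ) < (L : ℚ) := by exact_mod_cast hL
  obtain ⟨h1, h2⟩ := h n hn
  constructor
  · apply div_pos _ hLq
    exact_mod_cast h1
  · rw [div_le_one hLq]
    exact_mod_cast h2

end Vale.Agent.P302
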