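import Vale.Agent.P302.Bridge

namespace Vale.Agent.P302

open Multiset

/-- `Cov Θ I k`: inside the multiset `I` there are `k` disjoint blocks, each with at most three
items and with total at least `Θ`. -/
def Cov (Θ : ℕ) (I : Multiset ℕ) (k : ℕ) : Prop :=
  ∃ B : Multiset (Multiset ℕ), card B = k ∧ B.sum ≤ I ∧ ∀ b ∈ B, card b ≤ 3 ∧ Θ ≤ b.sum

theorem Cov.mono {Θ : ℕ} {I I' : Multiset ℕ} {k : ℕ} (h : I ≤ I') (hc : Cov Θ I k) :
    Cov Θ I' k := by
  obtain ⟨B, h1, h2, h3⟩ := hc
  exact ⟨B, h1, h2.trans h, h3⟩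

theorem Cov.pred {Θ : ℕ} {I : Multiset ℕ} {k : ℕ} (hc : Cov Θ I (k + 1)) : Cov Θ I k := by
  obtain ⟨B, h1, h2, h3⟩ := hc
  have hpos : 0 < card B := by omega
  obtain ⟨b, hb⟩ := Multiset.card_pos_iff_exists_mem.1 hpos
  obtain ⟨B', rfl⟩ := Multiset.exists_cons_of_mem hb
  refine ⟨B', by simpa using h1, ?_, fun c hc => h3 c (Multiset.mem_cons_of_mem hc)⟩
  refine le_trans ?_ h2
  rw [Multiset.sum_cons]
  exact Multiset.le_add_left _ _

theorem Cov.le {Θ : ℕ} {I : Multiset ℕ} {k l : ℕ} (hkl : k ≤ l) (hc : Cov Θ I l) : Cov Θ I k := by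
  induction hkl with
  | refl => exact hc
  | step _ ih => exact ih hc.pred

/-- enlarging one item keeps a family of blocks -/
theorem Cov.bump {Θ : ℕ} {I : Multiset ℕ} {k r y : ℕ} (hry : r ≤ y) (hc : Cov Θ (r ::ₘ I) k) :
    Cov Θ (y ::ₘ I) k := by
  obtain ⟨B, h1, h2, h3⟩ := hc
  by_cases hr : r ∈ B.sum
  · obtain ⟨b0, hb0, hrb0⟩ := Multiset.mem_join.1 hr
    obtain ⟨B', rfl⟩ := Multiset.exists_cons_of_mem hb0
    obtain ⟨c, rfl⟩ := Multiset.exists_cons_of_mem hrb0
    refine ⟨(y ::ₘ c) ::ₘ B', by simpa using h1, ?_, ?_⟩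
    · rw [Multiset.sum_cons, Multiset.cons_add] at h2 ⊢
      exact (Multiset.cons_le_cons_iff y).2 ((Multiset.cons_le_cons_iff r).1 h2)
    · intro b hb
      rcases Multiset.mem_cons.1 hb with rfl | hb'
      · have := h3 _ (Multiset.mem_cons_self _ _)
        simp only [Multiset.card_cons, Multiset.sum_cons] at this ⊢
        omega
      · exact h3 b (Multiset.mem_cons_of_mem hb')
  · refine ⟨B, h1, ?_, h3⟩
    exact ((Multiset.le_cons_of_notMem hr).1 h2).trans (Multiset.le_cons_self _ _)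

/-- removing a larger item is worse than removing a smaller one -/
theorem Cov.swap {Θ : ℕ} {I : Multiset ℕ} {k r y : ℕ} (hr : r ∈ I) (hy : y ∈ I) (hry : r ≤ y)
    (hc : Cov Θ (I.erase y) k) : Cov Θ (I.erase r) k := by
  by_cases hEq : r = y
  · subst hEq; exact hc
  · obtain ⟨I1, rfl⟩ := Multiset.exists_cons_of_mem hy
    have hr1 : r ∈ I1 := by
      rcases Multiset.mem_cons.1 hr with h | h
      · exact absurd h hEq
      · exact h
    obtain ⟨I2, rfl⟩ := Multiset.exists_cons_of_mem hr1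
    have e1 : (y ::ₘ r ::ₘ I2).erase y = r ::ₘ I2 := Multiset.erase_cons_head _ _
    have e2 : (y ::ₘ r ::ₘ I2).erase r = y ::ₘ I2 := by
      rw [Multiset.erase_cons_tail _ (fun h => hEq h.symm), Multiset.erase_cons_head]
    rw [e1] at hc
    rw [e2]
    exact hc.bump hry

/-- either the item `x` is not used, or it lies in a block whose other items are `b'` -/
theorem Cov.peel {Θ : ℕ} {I : Multiset ℕ} {k x : ℕ} (hc : Cov Θ (x ::ₘ I) k) :
    Cov Θ I k ∨ ∃ b' : Multiset ℕ, ∃ k' : ℕ, b' ≤ I ∧ card b' ≤ 2 ∧ Θ ≤ x + b'.sum ∧ k = k' + 1 ∧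
      Cov Θ (I - b') k' := by
  obtain ⟨B, h1, h2, h3⟩ := hc
  by_cases hx : x ∈ B.sum
  · right
    obtain ⟨b0, hb0, hxb0⟩ := Multiset.mem_join.1 hx
    obtain ⟨B', rfl⟩ := Multiset.exists_cons_of_mem hb0
    obtain ⟨c, rfl⟩ := Multiset.exists_cons_of_mem hxb0
    have h4 : c + B'.sum ≤ I := by
      rw [Multiset.sum_cons, Multiset.cons_add] at h2
      exact (Multiset.cons_le_cons_iff x).1 h2
    have h5 := h3 _ (Multiset.mem_cons_self _ _)
    simp only [Multiset.card_cons, Multiset.sum_cons] at h5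
    refine ⟨c, card B', (Multiset.le_add_right _ _).trans h4, by omega, h5.2, by simpa using h1.symm,
      B', rfl, ?_, fun b hb => h3 b (Multiset.mem_cons_of_mem hb)⟩
    exact le_tsub_of_add_le_left h4
  · left
    exact ⟨B, h1, (Multiset.le_cons_of_notMem hx).1 h2, h3⟩

theorem sum_map_filter (p : ℕ → Prop) [DecidablePred p] (B : Multiset (Multiset ℕ)) :
    (B.map (fun b => b.filter p)).sum = B.sum.filter p := by
  induction B using Multiset.induction_on with
  | empty => simp
  | cons b B ih => simp [ih, Multiset.filter_add]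

theorem dvd_sum_of_forall {M : ℕ} (s : Multiset ℕ) (h : ∀ x ∈ s, M ∣ x) : M ∣ s.sum :=
  Multiset.dvd_sum h

theorem small_sum {M : ℕ} (s : Multiset ℕ) (h : ∀ x ∈ s, 3 * x < M) :
    3 * s.sum + card s ≤ card s * M ∧ (card s = 0 → s.sum = 0) := by
  induction s using Multiset.induction_on with
  | empty => simp
  | cons a s ih =>
    have h1 := h a (Multiset.mem_cons_self _ _)
    have h2 := (ih (fun x hx => h x (Multiset.mem_cons_of_mem hx))).1
    refine ⟨?_, by simp⟩
    simp only [Multiset.sum_cons, Multiset.card_cons]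
    nlinarith

/-- items that are tiny with respect to the common divisor `M` of all other items are useless -/
theorem Cov.negl {Θ M : ℕ} {T R : Multiset ℕ} {k : ℕ} (hM : 0 < M) (hΘ : M ∣ Θ)
    (hR : ∀ r ∈ R, M ∣ r) (hT : ∀ t ∈ T, 3 * t < M) (hc : Cov Θ (T + R) k) : Cov Θ R k := by
  obtain ⟨B, h1, h2, h3⟩ := hc
  let p : ℕ → Prop := fun x => M ≤ 3 * x
  have hTp : T.filter p = 0 := by
    apply Multiset.filter_eq_nil.2
    intro t ht
    have := hT t ht
    simp only [p]; omega
  have hle : B.sum.filter p ≤ R := by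
    have h4 : B.sum.filter p ≤ (T + R).filter p := Multiset.filter_le_filter p h2
    rw [Multiset.filter_add, hTp, zero_add] at h4
    exact h4.trans (Multiset.filter_le _ _)
  refine ⟨B.map (fun b => b.filter p), by simpa using h1, ?_, ?_⟩
  · rw [sum_map_filter]; exact hle
  · intro b' hb'
    obtain ⟨b, hb, rfl⟩ := Multiset.mem_map.1 hb'
    obtain ⟨hcard, hsum⟩ := h3 b hb
    have hsub : b.filter p ≤ R := by
      refine le_trans ?_ hle
      apply Multiset.filter_le_filter
      obtain ⟨B', rfl⟩ := Multiset.exists_cons_of_mem hb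
      rw [Multiset.sum_cons]
      exact Multiset.le_add_right _ _
    have hdvd : M ∣ (b.filter p).sum :=
      Multiset.dvd_sum (fun x hx => hR x (Multiset.mem_of_le hsub hx))
    have hsplit : (b.filter p).sum + (b.filter (fun x => ¬ p x)).sum = b.sum := by
      rw [← Multiset.sum_add, Multiset.filter_add_not]
    have hcard2 : card (b.filter (fun x => ¬ p x)) ≤ 3 :=
      (Multiset.card_le_card (Multiset.filter_le _ _)).trans hcard
    have hsm := (small_sum (M := M) (b.filter (fun x => ¬ p x)) (by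
      intro x hx
      have := (Multiset.mem_filter.1 hx).2
      simp only [p] at this; omega))
    refine ⟨(Multiset.card_le_card (Multiset.filter_le _ _)).trans hcard, ?_⟩
    by_contra hlt
    obtain ⟨u, hu⟩ := hdvd
    obtain ⟨w, hw⟩ := hΘ
    have hlt' : (b.filter p).sum < Θ := by omega
    rw [hu, hw] at hlt'
    have huw : u < w := lt_of_mul_lt_mul_left hlt' (Nat.zero_le _)
    have h6 : M * u + M ≤ M * w := by
      have : M * (u + 1) ≤ M * w := Nat.mul_le_mul_left _ huw
      linarith [this, Nat.mul_succ M u]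
    have h7 : (b.filter (fun x => ¬ p x)).sum < M := by
      rcases Nat.eq_zero_or_pos (card (b.filter (fun x => ¬ p x))) with h0 | hpos
      · rw [hsm.2 h0]; exact hM
      · have := hsm.1
        nlinarith
    omega

end Vale.Agent.P302
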