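import Mathlib

namespace Vale.Agent.P302

/-- `Packs I k`: the items of `I` can be partitioned into `k` bins, each of total size at most `1`. -/
def Packs (I : Multiset ℚ) (k : ℕ) : Prop :=
  ∃ B : Multiset (Multiset ℚ), Multiset.card B = k ∧ B.sum = I ∧ ∀ b ∈ B, b.sum ≤ 1

/-- least number of bins -/
noncomputable def OPT (I : Multiset ℚ) : ℕ := sInf {k | Packs I k}

/-- a configuration: a vector of multiplicities on the sizes of `I` of total size at most `1` -/
def IsConfig (I : Multiset ℚ) (c : ℚ → ℕ) : Prop :=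
  (∀ s, s ∉ I → c s = 0) ∧ ∑ s ∈ I.toFinset, s * (c s : ℚ) ≤ 1

/-- a feasible solution of the configuration LP, given as a finite family of weighted configurations -/
def IsFracCover (I : Multiset ℚ) (m : ℕ) (c : Fin m → ℚ → ℕ) (z : Fin m → ℝ) : Prop :=
  (∀ t, IsConfig I (c t)) ∧ (∀ t, 0 ≤ z t) ∧
    ∀ s ∈ I, (I.count s : ℝ) ≤ ∑ t, (c t s : ℝ) * z t

/-- value of the Gilmore-Gomory configuration LP -/
noncomputable def LP (I : Multiset ℚ) : ℝ :=
  sInf {v | ∃ (m : ℕ) (c : Fin m → ℚ → ℕ) (z : Fin m → ℝ), IsFracCover I m c z ∧ v = ∑ t, z t}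

/-- a bin packing instance: sizes in `(0,1]` -/
def IsInstance (I : Multiset ℚ) : Prop := ∀ a ∈ I, 0 < a ∧ a ≤ 1

theorem packs_succ {I : Multiset ℚ} {k : ℕ} (h : Packs I k) : Packs I (k + 1) := by
  obtain ⟨B, hc, hs, hb⟩ := h
  refine ⟨(0 : Multiset ℚ) ::ₘ B, by simp [hc], by simp [hs], ?_⟩
  intro b hb'
  rcases Multiset.mem_cons.1 hb' with rfl | h'
  · simp
  · exact hb b h'

theorem packs_mono {I : Multiset ℚ} {k l : ℕ} (hkl : k ≤ l) (h : Packs I k) : Packs I l := by
  induction hkl with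
  | refl => exact h
  | step _ ih => exact packs_succ ih

theorem packs_card {I : Multiset ℚ} (hI : IsInstance I) : Packs I (Multiset.card I) := by
  refine ⟨I.map (fun a => {a}), by simp, ?_, ?_⟩
  · induction I using Multiset.induction_on with
    | empty => simp
    | cons a s ih =>
      have : IsInstance s := fun x hx => hI x (Multiset.mem_cons_of_mem hx)
      simp [ih this]
  · intro b hb
    obtain ⟨a, ha, rfl⟩ := Multiset.mem_map.1 hb
    simpa using (hI a ha).2

theorem lt_OPT_of_not_packs {I : Multiset ℚ} (hI : IsInstance I) {k : ℕ} (h : ¬ Packs I k) :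
    k < OPT I := by
  by_contra hlt
  have hmem : OPT I ∈ {k | Packs I k} := Nat.sInf_mem ⟨_, packs_card hI⟩
  exact h (packs_mono (not_lt.1 hlt) hmem)

theorem LP_le_of_cover {I : Multiset ℚ} {m : ℕ} {c : Fin m → ℚ → ℕ} {z : Fin m → ℝ}
    (h : IsFracCover I m c z) : LP I ≤ ∑ t, z t := by
  apply csInf_le
  · refine ⟨0, ?_⟩
    rintro v ⟨m, c, z, hz, rfl⟩
    exact Finset.sum_nonneg (fun t _ => hz.2.1 t)
  · exact ⟨m, c, z, h, rfl⟩

end Vale.Agent.P302
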