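import Vale.Agent.P302.GadgetCov
import Vale.Agent.P302.Bridge2

namespace Vale.Agent.P302

open Multiset

/-- the weight of a piece in the frame argument -/
def frameWt (lo c0 b1 : ℕ) (x : ℕ) : ℕ :=
  if x < lo then 1 else if x ≤ c0 then 3 else if x < b1 then 4 else 5

theorem frame_bin (lo c0 b1 b2 c : ℕ) (b : Multiset ℕ)
    (h : ∀ x ∈ b, c ≤ x ∧ (c0 < x → b2 ≤ x)) :
    (b.map (frameWt lo c0 b1)).sum
        = b.countP (fun x => x < lo) + 3 * b.countP (fun x => lo ≤ x ∧ x ≤ c0)
          + 4 * b.countP (fun x => lo ≤ x ∧ c0 < x ∧ x < b1)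
          + 5 * b.countP (fun x => lo ≤ x ∧ c0 < x ∧ b1 ≤ x) ∧
      b.countP (fun x => x < lo) * c + b.countP (fun x => lo ≤ x ∧ x ≤ c0) * lo
          + b.countP (fun x => lo ≤ x ∧ c0 < x ∧ x < b1) * b2
          + b.countP (fun x => lo ≤ x ∧ c0 < x ∧ b1 ≤ x) * b1 ≤ b.sum ∧
      card b = b.countP (fun x => x < lo) + b.countP (fun x => lo ≤ x ∧ x ≤ c0)
          + b.countP (fun x => lo ≤ x ∧ c0 < x ∧ x < b1)
          + b.countP (fun x => lo ≤ x ∧ c0 < x ∧ b1 ≤ x) := by
  induction b using Multiset.induction_on with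
  | empty => simp
  | cons a b ih =>
    obtain ⟨i1, i2, i3⟩ := ih (fun x hx => h x (Multiset.mem_cons_of_mem hx))
    obtain ⟨ha1, ha2⟩ := h a (Multiset.mem_cons_self _ _)
    simp only [Multiset.map_cons, Multiset.sum_cons, Multiset.countP_cons, Multiset.card_cons]
    by_cases c1 : a < lo
    · have e2 : ¬ (lo ≤ a ∧ a ≤ c0) := by omega
      have e3 : ¬ (lo ≤ a ∧ c0 < a ∧ a < b1) := by omega
      have e4 : ¬ (lo ≤ a ∧ c0 < a ∧ b1 ≤ a) := by omega
      have ew : frameWt lo c0 b1 a = 1 := by simp [frameWt, c1]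
      rw [if_pos c1, if_neg e2, if_neg e3, if_neg e4, ew]
      refine ⟨by omega, ?_, by omega⟩
      nlinarith
    · by_cases c2 : a ≤ c0
      · have e2 : (lo ≤ a ∧ a ≤ c0) := by omega
        have e3 : ¬ (lo ≤ a ∧ c0 < a ∧ a < b1) := by omega
        have e4 : ¬ (lo ≤ a ∧ c0 < a ∧ b1 ≤ a) := by omega
        have ew : frameWt lo c0 b1 a = 3 := by simp [frameWt, c1, c2]
        rw [if_neg c1, if_pos e2, if_neg e3, if_neg e4, ew]
        refine ⟨by omega, ?_, by omega⟩
        nlinarith
      · by_cases c3 : a < b1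
        · have e2 : ¬ (lo ≤ a ∧ a ≤ c0) := by omega
          have e3 : (lo ≤ a ∧ c0 < a ∧ a < b1) := by omega
          have e4 : ¬ (lo ≤ a ∧ c0 < a ∧ b1 ≤ a) := by omega
          have ew : frameWt lo c0 b1 a = 4 := by simp [frameWt, c1, c2, c3]
          have hb2 : b2 ≤ a := ha2 (by omega)
          rw [if_neg c1, if_neg e2, if_pos e3, if_neg e4, ew]
          refine ⟨by omega, ?_, by omega⟩
          nlinarith
        · have e2 : ¬ (lo ≤ a ∧ a ≤ c0) := by omega
          have e3 : ¬ (lo ≤ a ∧ c0 < a ∧ a < b1) := by omega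
          have e4 : (lo ≤ a ∧ c0 < a ∧ b1 ≤ a) := by omega
          have ew : frameWt lo c0 b1 a = 5 := by simp [frameWt, c1, c2, c3]
          rw [if_neg c1, if_neg e2, if_neg e3, if_pos e4, ew]
          refine ⟨by omega, ?_, by omega⟩
          nlinarith

theorem sum_le_eight (f : Multiset ℕ → ℕ) (B : Multiset (Multiset ℕ))
    (h : ∀ b ∈ B, f b ≤ 9) :
    (B.map f).sum ≤ 8 * card B + card (B.filter (fun b => 8 < f b)) := by
  induction B using Multiset.induction_on with
  | empty => simp
  | cons b B ih =>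
    have h1 := h b (Multiset.mem_cons_self _ _)
    have h2 := ih (fun b hb => h b (Multiset.mem_cons_of_mem hb))
    by_cases hb : 8 < f b
    · have hf : Multiset.filter (fun b => 8 < f b) (b ::ₘ B) =
          b ::ₘ Multiset.filter (fun b => 8 < f b) B := by
        simp [hb]
      rw [hf]
      simp only [Multiset.map_cons, Multiset.sum_cons, Multiset.card_cons]
      omega
    · have hf : Multiset.filter (fun b => 8 < f b) (b ::ₘ B) =
          Multiset.filter (fun b => 8 < f b) B := by
        simp [hb]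
      rw [hf]
      simp only [Multiset.map_cons, Multiset.sum_cons, Multiset.card_cons]
      omega

theorem sum_map_sum_map (g : ℕ → ℕ) (B : Multiset (Multiset ℕ)) :
    (B.map (fun b => (b.map g).sum)).sum = (B.sum.map g).sum := by
  induction B using Multiset.induction_on with
  | empty => simp
  | cons b B ih => simp [ih]

theorem le_sum_of_mem' {B : Multiset (Multiset ℕ)} {b : Multiset ℕ} (hb : b ∈ B) : b ≤ B.sum := by
  obtain ⟨B', rfl⟩ := Multiset.exists_cons_of_mem hb
  rw [Multiset.sum_cons]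
  exact Multiset.le_add_right _ _

/-- the frame lemma: a packing of the frame `b1, b2, W, n` small pieces into few bins contains
many bins made of three pieces of `W` -/
theorem frame_cov (cap c0 Th lo b1 b2 c : ℕ) (W : List ℕ) (n k : ℕ) (hc : c < lo)
    (hlo : lo ≤ c0)
    (hW : ∀ x ∈ W, lo ≤ x ∧ x ≤ c0) (h12 : c0 < b2) (h21 : b2 < b1) (hTh : cap + Th ≤ 3 * c0)
    (hnum : ∀ n1 n3 n4 n5 : ℕ, n4 ≤ 1 → n5 ≤ 1 →
      n1 * c + n3 * lo + n4 * b2 + n5 * b1 ≤ cap →
      n1 + 3 * n3 + 4 * n4 + 5 * n5 ≤ 8 ∨ (n3 = 3 ∧ n1 = 0 ∧ n4 = 0 ∧ n5 = 0))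
    (hP : PacksN cap (((b1 :: b2 :: W) ++ List.replicate n c : List ℕ) : Multiset ℕ) k) :
    Cov Th ((W.map (fun x => c0 - x) : List ℕ) : Multiset ℕ) (3 * W.length + 9 + n - 8 * k) := by
  obtain ⟨B, hcard, hsum, hB⟩ := hP
  set I : Multiset ℕ := b1 ::ₘ b2 ::ₘ ((W : Multiset ℕ) + Multiset.replicate n c) with hI
  have eI : (((b1 :: b2 :: W) ++ List.replicate n c : List ℕ) : Multiset ℕ) = I := by
    rw [hI, ← Multiset.coe_replicate, Multiset.coe_add, Multiset.cons_coe, Multiset.cons_coe]
    simp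
  rw [eI] at hsum
  set wt := frameWt lo c0 b1 with hwt
  have hmemW : ∀ x ∈ (W : Multiset ℕ), lo ≤ x ∧ x ≤ c0 := fun x hx => hW x (by simpa using hx)
  -- membership description
  have hmemI : ∀ x ∈ I, c ≤ x ∧ (c0 < x → b2 ≤ x) := by
    intro x hx
    rw [hI] at hx
    rcases Multiset.mem_cons.1 hx with rfl | hx
    · omega
    rcases Multiset.mem_cons.1 hx with rfl | hx
    · omega
    rcases Multiset.mem_add.1 hx with hx | hx
    · have := hmemW x hx; omega
    · have := Multiset.eq_of_mem_replicate hx; omega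
  -- total weight
  have htot : (I.map wt).sum = 3 * W.length + 9 + n := by
    have w1 : wt b1 = 5 := by
      simp only [hwt, frameWt]
      rw [if_neg (by omega), if_neg (by omega), if_neg (by omega)]
    have w2 : wt b2 = 4 := by
      simp only [hwt, frameWt]
      rw [if_neg (by omega), if_neg (by omega), if_pos (by omega)]
    have w3 : ((W : Multiset ℕ).map wt).sum = 3 * W.length := by
      have : (W : Multiset ℕ).map wt = (W : Multiset ℕ).map (fun _ => 3) := by
        apply Multiset.map_congr rfl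
        intro x hx
        have := hmemW x hx
        simp only [hwt, frameWt]
        rw [if_neg (by omega), if_pos (by omega)]
      rw [this]
      simp [mul_comm]
    have w4 : ((Multiset.replicate n c).map wt).sum = n := by
      have : wt c = 1 := by
        simp only [hwt, frameWt]
        rw [if_pos hc]
      rw [Multiset.map_replicate, Multiset.sum_replicate, this]
      simp
    rw [hI]
    simp only [Multiset.map_cons, Multiset.sum_cons, Multiset.map_add, Multiset.sum_add]
    rw [w1, w2, w3, w4]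
    omega
  -- counts of the two special classes
  have hcnt4 : I.countP (fun x => lo ≤ x ∧ c0 < x ∧ x < b1) = 1 := by
    rw [hI, Multiset.countP_cons_of_neg _ (by omega), Multiset.countP_cons_of_pos _ (by omega),
      Multiset.countP_add]
    have z1 : (W : Multiset ℕ).countP (fun x => lo ≤ x ∧ c0 < x ∧ x < b1) = 0 := by
      rw [Multiset.countP_eq_zero]
      intro x hx
      have := hmemW x hx
      omega
    have z2 : (Multiset.replicate n c).countP (fun x => lo ≤ x ∧ c0 < x ∧ x < b1) = 0 := by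
      rw [Multiset.countP_eq_zero]
      intro x hx
      have := Multiset.eq_of_mem_replicate hx
      omega
    rw [z1, z2]
  have hcnt5 : I.countP (fun x => lo ≤ x ∧ c0 < x ∧ b1 ≤ x) = 1 := by
    rw [hI, Multiset.countP_cons_of_pos _ (by omega), Multiset.countP_cons_of_neg _ (by omega),
      Multiset.countP_add]
    have z1 : (W : Multiset ℕ).countP (fun x => lo ≤ x ∧ c0 < x ∧ b1 ≤ x) = 0 := by
      rw [Multiset.countP_eq_zero]
      intro x hx
      have := hmemW x hx
      omega
    have z2 : (Multiset.replicate n c).countP (fun x => lo ≤ x ∧ c0 < x ∧ b1 ≤ x) = 0 := by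
      rw [Multiset.countP_eq_zero]
      intro x hx
      have := Multiset.eq_of_mem_replicate hx
      omega
    rw [z1, z2]
  -- each bin
  have hbin : ∀ b ∈ B, (b.map wt).sum ≤ 8 ∨
      ((b.map wt).sum = 9 ∧ card b = 3 ∧ ∀ x ∈ b, lo ≤ x ∧ x ≤ c0) := by
    intro b hb
    have hle : b ≤ I := hsum ▸ le_sum_of_mem' hb
    obtain ⟨f1, f2, f3⟩ := frame_bin lo c0 b1 b2 c b
      (fun x hx => hmemI x (Multiset.mem_of_le hle hx))
    have g4 : b.countP (fun x => lo ≤ x ∧ c0 < x ∧ x < b1) ≤ 1 :=
      hcnt4 ▸ Multiset.countP_le_of_le _ hle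
    have g5 : b.countP (fun x => lo ≤ x ∧ c0 < x ∧ b1 ≤ x) ≤ 1 :=
      hcnt5 ▸ Multiset.countP_le_of_le _ hle
    rcases hnum _ _ _ _ g4 g5 (f2.trans (hB b hb)) with h8 | ⟨h3, h1, h4, h5⟩
    · left
      rw [f1]; exact h8
    · right
      refine ⟨by rw [f1, h3, h1, h4, h5], by rw [f3, h3, h1, h4, h5], ?_⟩
      have hall : b.countP (fun x => lo ≤ x ∧ x ≤ c0) = card b := by
        rw [f3, h3, h1, h4, h5]
      exact Multiset.countP_eq_card.1 hall
  -- counting
  have hcount := sum_le_eight (fun b => (b.map wt).sum) B (by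
    intro b hb
    rcases hbin b hb with h | h
    · show (b.map wt).sum ≤ 9
      omega
    · show (b.map wt).sum ≤ 9
      omega)
  rw [sum_map_sum_map, hsum, htot, hcard] at hcount
  set T := B.filter (fun b => 8 < (b.map wt).sum) with hT
  have hTmem : ∀ b ∈ T, b ∈ B ∧ card b = 3 ∧ ∀ x ∈ b, lo ≤ x ∧ x ≤ c0 := by
    intro b hb
    obtain ⟨hbB, h8⟩ := Multiset.mem_filter.1 hb
    rcases hbin b hbB with h | h
    · omega
    · exact ⟨hbB, h.2⟩
  have hTsum : T.sum ≤ (W : Multiset ℕ) := by
    have h1 : T.sum ≤ I := by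
      rw [← hsum]
      conv_rhs => rw [← Multiset.filter_add_not (fun b => 8 < (b.map wt).sum) B]
      rw [Multiset.sum_add]
      exact Multiset.le_add_right _ _
    have h2 : T.sum.filter (fun x => lo ≤ x ∧ x ≤ c0) = T.sum := by
      apply Multiset.filter_eq_self.2
      intro x hx
      obtain ⟨b, hb, hxb⟩ := Multiset.mem_join.1 hx
      exact (hTmem b hb).2.2 x hxb
    have h3 : I.filter (fun x => lo ≤ x ∧ x ≤ c0) = (W : Multiset ℕ) := by
      rw [hI, Multiset.filter_cons_of_neg _ (by omega), Multiset.filter_cons_of_neg _ (by omega),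
        Multiset.filter_add]
      have y1 : (W : Multiset ℕ).filter (fun x => lo ≤ x ∧ x ≤ c0) = (W : Multiset ℕ) :=
        Multiset.filter_eq_self.2 hmemW
      have y2 : (Multiset.replicate n c).filter (fun x => lo ≤ x ∧ x ≤ c0) = 0 := by
        apply Multiset.filter_eq_nil.2
        intro x hx
        have := Multiset.eq_of_mem_replicate hx
        omega
      rw [y1, y2, add_zero]
    have h4 := Multiset.filter_le_filter (fun x => lo ≤ x ∧ x ≤ c0) h1
    rwa [h2, h3] at h4
  have hcov : Cov Th ((W.map (fun x => c0 - x) : List ℕ) : Multiset ℕ) (card T) := by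
    refine ⟨T.map (fun b => b.map (fun x => c0 - x)), by simp, ?_, ?_⟩
    · rw [sum_map_map]
      have h3 := Multiset.map_le_map (f := fun x => c0 - x) hTsum
      simpa using h3
    · intro b' hb'
      obtain ⟨b, hb, rfl⟩ := Multiset.mem_map.1 hb'
      obtain ⟨hbB, hb3, hbx⟩ := hTmem b hb
      have h4 := sum_map_sub c0 b (fun x hx => (hbx x hx).2)
      have h5 := hB b hbB
      rw [hb3] at h4
      refine ⟨by simp [hb3], ?_⟩
      omega
  exact Cov.le (by omega) hcov

/-- the splitting criterion with propositional hypotheses on both parts (list form) -/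
theorem not_packsN_of_split_prop2 (cap τ1 τ2 c s : ℕ) (Bs bigs own : List ℕ) (f k0 h t : ℕ)
    (h1 : ∀ x ∈ Bs, τ1 < x) (h2 : ∀ x ∈ bigs, τ2 < x) (h3 : ∀ x ∈ own, c ≤ x ∧ x ≤ s)
    (hcs : c ≤ s) (hτ : τ2 ≤ τ1) (hcap : cap < τ1 + τ2 + 2)
    (hf : h + t ≤ f)
    (hA : ¬ PacksN cap ((bigs ++ List.replicate (h + 1) c : List ℕ) : Multiset ℕ) k0)
    (hG : ¬ PacksN cap ((Bs ++ (List.replicate t s ++ own) : List ℕ) : Multiset ℕ) Bs.length) :
    ¬ PacksN cap ((Bs ++ (bigs ++ (own ++ List.replicate f s)) : List ℕ) : Multiset ℕ)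
      (Bs.length + k0) := by
  apply not_packsN_of_split_abs cap τ1 τ2 c s Bs bigs own f k0 h t h1 h2 h3 hcs hτ hcap hf
  · have e1 : ((bigs ++ List.replicate (h + 1) c : List ℕ) : Multiset ℕ)
        = (bigs : Multiset ℕ) + Multiset.replicate (h + 1) c := by
      simp [← Multiset.coe_add, Multiset.coe_replicate]
    rwa [e1] at hA
  · have e1 : ((Bs ++ (List.replicate t s ++ own) : List ℕ) : Multiset ℕ)
        = (Bs : Multiset ℕ) + (own : Multiset ℕ) + Multiset.replicate t s := by
      simp only [← Multiset.coe_add, ← Multiset.coe_replicate]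
      rw [add_assoc, add_comm (own : Multiset ℕ)]
    rwa [e1] at hG

end Vale.Agent.P302
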