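import Mathlib

namespace Vale.Agent.P302

/-- finite check of the weights of all possible bins of the frame -/
def numCheck (cap c lo b1 b2 : ℕ) : Bool :=
  (List.range 9).all fun n1 => (List.range 4).all fun n3 => (List.range 2).all fun n4 =>
    (List.range 2).all fun n5 =>
      !(decide (n1 * c + n3 * lo + n4 * b2 + n5 * b1 ≤ cap)) ||
        decide (n1 + 3 * n3 + 4 * n4 + 5 * n5 ≤ 8) ||
        decide (n3 = 3 ∧ n1 = 0 ∧ n4 = 0 ∧ n5 = 0)

/-- the numerical hypothesis of the frame lemma follows from a finite check -/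
theorem hnum_of_dec (cap c lo b1 b2 : ℕ) (h9 : cap < 9 * c) (h4 : cap < 4 * lo)
    (hdec : numCheck cap c lo b1 b2 = true) :
    ∀ n1 n3 n4 n5 : ℕ, n4 ≤ 1 → n5 ≤ 1 → n1 * c + n3 * lo + n4 * b2 + n5 * b1 ≤ cap →
        n1 + 3 * n3 + 4 * n4 + 5 * n5 ≤ 8 ∨ (n3 = 3 ∧ n1 = 0 ∧ n4 = 0 ∧ n5 = 0) := by
  intro n1 n3 n4 n5 h4' h5' h
  have a1 : n1 < 9 := by
    by_contra hh
    have : 9 * c ≤ n1 * c := Nat.mul_le_mul_right c (by omega)
    omega
  have a3 : n3 < 4 := by
    by_contra hh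
    have : 4 * lo ≤ n3 * lo := Nat.mul_le_mul_right lo (by omega)
    omega
  unfold numCheck at hdec
  rw [List.all_eq_true] at hdec
  have h1 := hdec n1 (List.mem_range.2 a1)
  rw [List.all_eq_true] at h1
  have h2 := h1 n3 (List.mem_range.2 a3)
  rw [List.all_eq_true] at h2
  have h3 := h2 n4 (List.mem_range.2 (by omega))
  rw [List.all_eq_true] at h3
  have h5 := h3 n5 (List.mem_range.2 (by omega))
  simp only [Bool.or_eq_true, Bool.not_eq_true', decide_eq_false_iff_not, decide_eq_true_eq] at h5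
  rcases h5 with (h5 | h5) | h5
  · exact absurd h h5
  · exact Or.inl h5
  · exact Or.inr h5

end Vale.Agent.P302
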