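import Vale.Agent.P302.GSplit

namespace Vale.Agent.P302

open Multiset

theorem isInstance_mkInst (L : ℕ) (items : List ℕ) (h : ∀ x ∈ items, 0 < x ∧ x ≤ L) :
    IsInstance (mkInst L items) := by
  intro a ha
  simp only [mkInst, Multiset.mem_coe, List.mem_map] at ha
  obtain ⟨x, hx, rfl⟩ := ha
  obtain ⟨h0, h1⟩ := h x hx
  have hL : (0 : ℚ) < (L : ℚ) := by exact_mod_cast lt_of_lt_of_le h0 h1
  constructor
  · have : (0 : ℚ) < (x : ℚ) := by exact_mod_cast h0
    positivity
  · rw [div_le_one hL]
    exact_mod_cast h1

/-- bin capacity -/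
def capA : ℕ := 360000

/-- six pieces larger than half a bin; each leaves room for two small pieces -/
def BsA : List ℕ := [272117, 272114, 272101, 272080, 272010, 272006]

/-- the large pieces of the core -/
def bigsA : List ℕ :=
  [226000, 178000, 160000, 158000, 146000, 122000, 120000, 119000, 107000, 107000, 96000]

/-- the perturbed small pieces -/
def ownA : List ℕ := [43996, 43995, 43993, 43965, 43960, 43944, 43943, 43930, 43908]

/-- all 32 pieces -/
def itemsA : List ℕ := BsA ++ (bigsA ++ (ownA ++ List.replicate 6 44000))

/-- a fractional solution of the configuration LP, weights in units of 1/18 -/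
def patsA : List (List ℕ × ℕ) :=
  [([272101, 43965, 43930], 8), ([272101, 43944, 43944], 6), ([272101, 43930, 43960], 4),
   ([272010, 44000, 43965], 3), ([272010, 43995, 43995], 9), ([272010, 43993, 43996], 6),
   ([272117, 43908, 43965], 7), ([272117, 43944, 43930], 6), ([272114, 43943, 43943], 9),
   ([272080, 44000, 43908], 11), ([272080, 43960, 43960], 7), ([272006, 44000, 43993], 12),
   ([272006, 43996, 43996], 6), ([272117, 44000], 5), ([272114, 44000], 9),
   ([226000, 122000], 6), ([178000, 178000], 9), ([160000, 107000, 44000, 44000], 8),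
   ([158000, 158000, 44000], 9), ([146000, 107000, 107000], 14),
   ([146000, 122000, 44000, 44000], 3), ([120000, 120000, 120000], 6),
   ([160000, 146000, 44000], 1), ([160000, 96000, 96000], 9),
   ([226000, 44000, 44000, 44000], 12), ([122000, 119000, 119000], 9)]

theorem coreA : packB capA 5 (bigsA ++ List.replicate (4 + 1) 43908) = false := by
  decide +kernel

theorem gadgetA : packB capA BsA.length (BsA ++ (List.replicate 2 44000 ++ ownA)) = false := by
  decide +kernel

theorem not_packsA : ¬ Packs (mkInst capA itemsA) 11 := by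
  intro h
  have h1 := packsN_of_packs capA (by decide) itemsA 11 h
  exact not_packsN_of_split capA 272000 88000 43908 44000 BsA bigsA ownA 6 5 4 2
    (by decide) (by decide) (by decide) (by decide) (by decide) (by decide) (by decide)
    coreA gadgetA h1

theorem lpA : LP (mkInst capA itemsA) ≤ 97 / 9 := by
  have h := LP_le_of_patterns capA (by decide) itemsA patsA 18 (by decide)
    (by decide +kernel) (by decide +kernel) (by decide +kernel)
  have e : (((patsA.map (fun p => p.2)).sum : ℕ) : ℝ) = 194 := by
    have : (patsA.map (fun p => p.2)).sum = 194 := by decide +kernel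
    rw [this]; norm_num
  rw [e] at h
  calc LP (mkInst capA itemsA) ≤ 194 / ((18 : ℕ) : ℝ) := h
    _ = 97 / 9 := by norm_num

theorem instA : IsInstance (mkInst capA itemsA) :=
  isInstance_mkInst capA itemsA (by decide +kernel)

theorem gapA : (11 : ℝ) / 9 ≤ (OPT (mkInst capA itemsA) : ℝ) - LP (mkInst capA itemsA) := by
  have h1 : 11 < OPT (mkInst capA itemsA) := lt_OPT_of_not_packs instA not_packsA
  have h2 : (12 : ℝ) ≤ (OPT (mkInst capA itemsA) : ℝ) := by exact_mod_cast h1
  have h3 := lpA
  linarith

end Vale.Agent.P302
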