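import Vale.Agent.P302.LPBound

namespace Vale.Agent.P302

open Multiset

/-- integer form of `Packs`: the multiset `S` of integer sizes can be split into `k` bins of
capacity `cap` -/
def PacksN (cap : ℕ) (S : Multiset ℕ) (k : ℕ) : Prop :=
  ∃ B : Multiset (Multiset ℕ), card B = k ∧ B.sum = S ∧ ∀ b ∈ B, b.sum ≤ cap

/-- all lists obtained from `l` by removing a subfamily of total size at most `r` -/
def fillB : List ℕ → ℕ → List (List ℕ)
  | [], _ => [[]]
  | a :: l, r => (if a ≤ r then fillB l (r - a) else []) ++ (fillB l r).map (fun p => a :: p)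

/-- exhaustive search (bin completion): can the list be packed into `k` bins of capacity `cap` -/
def packB (cap : ℕ) : ℕ → List ℕ → Bool
  | 0, l => l.isEmpty
  | _ + 1, [] => true
  | k + 1, a :: l =>
      decide (a ≤ cap) &&
        (fillB l (cap - a)).any (fun p => decide (p.sum ≤ k * cap) && packB cap k p)

theorem fillB_complete : ∀ (l : List ℕ) (r : ℕ) (s : Multiset ℕ), s ≤ (l : Multiset ℕ) →
    s.sum ≤ r → ∃ p ∈ fillB l r, (p : Multiset ℕ) + s = (l : Multiset ℕ) := by
  intro l
  induction l with
  | nil =>
    intro r s hs _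
    have : s = 0 := by simpa using hs
    subst this
    exact ⟨[], by simp [fillB], by simp⟩
  | cons a l ih =>
    intro r s hs hr
    by_cases ha : a ∈ s
    · obtain ⟨t, rfl⟩ := Multiset.exists_cons_of_mem ha
      have ht : t ≤ (l : Multiset ℕ) := by
        have : a ::ₘ t ≤ a ::ₘ (l : Multiset ℕ) := by simpa using hs
        exact (Multiset.cons_le_cons_iff a).1 this
      have hsum : a + t.sum ≤ r := by simpa using hr
      obtain ⟨p, hp, hpe⟩ := ih (r - a) t ht (by omega)
      refine ⟨p, ?_, ?_⟩
      · simp only [fillB, List.mem_append]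
        left
        rw [if_pos (by omega)]
        exact hp
      · rw [Multiset.add_cons, hpe]
        simp
    · have ht : s ≤ (l : Multiset ℕ) := by
        have : s ≤ a ::ₘ (l : Multiset ℕ) := by simpa using hs
        exact (Multiset.le_cons_of_notMem ha).1 this
      obtain ⟨p, hp, hpe⟩ := ih r s ht hr
      refine ⟨a :: p, ?_, ?_⟩
      · simp only [fillB, List.mem_append, List.mem_map]
        right
        exact ⟨p, hp, rfl⟩
      · have : ((a :: p : List ℕ) : Multiset ℕ) = a ::ₘ (p : Multiset ℕ) := by simp
        rw [this, Multiset.cons_add, hpe]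
        simp

theorem sum_sum_le (cap : ℕ) (B : Multiset (Multiset ℕ)) (h : ∀ b ∈ B, b.sum ≤ cap) :
    B.sum.sum ≤ card B * cap := by
  induction B using Multiset.induction_on with
  | empty => simp
  | cons b B ih =>
    have h1 := h b (Multiset.mem_cons_self _ _)
    have h2 := ih (fun b hb => h b (Multiset.mem_cons_of_mem hb))
    simp only [Multiset.sum_cons, Multiset.sum_add, Multiset.card_cons]
    nlinarith

/-- peel off the bin containing `a` -/
theorem PacksN.peel {cap a : ℕ} {S : Multiset ℕ} {k : ℕ} (h : PacksN cap (a ::ₘ S) (k + 1)) :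
    ∃ r : Multiset ℕ, r ≤ S ∧ a + r.sum ≤ cap ∧ PacksN cap (S - r) k := by
  obtain ⟨B, hc, hsum, hB⟩ := h
  have ha : a ∈ B.sum := by rw [hsum]; simp
  obtain ⟨b0, hb0, hab0⟩ := Multiset.mem_join.1 ha
  obtain ⟨B', rfl⟩ := Multiset.exists_cons_of_mem hb0
  obtain ⟨r, rfl⟩ := Multiset.exists_cons_of_mem hab0
  have hsum' : r + B'.sum = S := by
    have h1 : a ::ₘ (r + B'.sum) = a ::ₘ S := by
      have : (a ::ₘ r) + B'.sum = a ::ₘ S := by simpa using hsum
      rw [Multiset.cons_add] at this
      exact this
    exact (Multiset.cons_inj_right a).1 h1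
  refine ⟨r, ?_, ?_, B', ?_, ?_, ?_⟩
  · rw [← hsum']; exact Multiset.le_add_right _ _
  · have := hB _ (Multiset.mem_cons_self _ _)
    simpa using this
  · simpa using hc
  · rw [← hsum']; simp
  · exact fun b hb => hB b (Multiset.mem_cons_of_mem hb)

theorem packB_of_packsN (cap : ℕ) : ∀ (k : ℕ) (l : List ℕ), PacksN cap (l : Multiset ℕ) k →
    packB cap k l = true := by
  intro k
  induction k with
  | zero =>
    intro l h
    obtain ⟨B, hc, hsum, _⟩ := h
    have : B = 0 := Multiset.card_eq_zero.1 hc
    subst this
    have : l = [] := by simpa using hsum.symm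
    subst this
    simp [packB]
  | succ k ih =>
    intro l h
    cases l with
    | nil => simp [packB]
    | cons a l =>
      have h' : PacksN cap (a ::ₘ (l : Multiset ℕ)) (k + 1) := by simpa using h
      obtain ⟨r, hr, hsum, hP⟩ := h'.peel
      obtain ⟨p, hp, hpe⟩ := fillB_complete l (cap - a) r hr (by omega)
      have hpe' : (l : Multiset ℕ) - r = (p : Multiset ℕ) := by
        rw [← hpe]; simp
      rw [hpe'] at hP
      simp only [packB, Bool.and_eq_true, decide_eq_true_eq, List.any_eq_true]
      refine ⟨by omega, p, hp, ?_, ih p hP⟩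
      obtain ⟨B, hc, hs, hB⟩ := hP
      have := sum_sum_le cap B hB
      rw [hs, hc] at this
      simpa using this

theorem PacksN.drop {cap a : ℕ} {S : Multiset ℕ} {k : ℕ} (h : PacksN cap (a ::ₘ S) k) :
    PacksN cap S k := by
  obtain ⟨B, hc, hsum, hB⟩ := h
  have ha : a ∈ B.sum := by rw [hsum]; simp
  obtain ⟨b0, hb0, hab0⟩ := Multiset.mem_join.1 ha
  obtain ⟨B', rfl⟩ := Multiset.exists_cons_of_mem hb0
  obtain ⟨r, rfl⟩ := Multiset.exists_cons_of_mem hab0
  have hsum' : r + B'.sum = S := by
    have h1 : a ::ₘ (r + B'.sum) = a ::ₘ S := by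
      have : (a ::ₘ r) + B'.sum = a ::ₘ S := by simpa using hsum
      rw [Multiset.cons_add] at this
      exact this
    exact (Multiset.cons_inj_right a).1 h1
  refine ⟨r ::ₘ B', by simpa using hc, by simpa using hsum', ?_⟩
  intro b hb
  rcases Multiset.mem_cons.1 hb with rfl | hb
  · have := hB _ (Multiset.mem_cons_self _ _)
    simp at this
    omega
  · exact hB b (Multiset.mem_cons_of_mem hb)

theorem PacksN.shrink {cap a a' : ℕ} {S : Multiset ℕ} {k : ℕ} (h : PacksN cap (a ::ₘ S) k)
    (ha' : a' ≤ a) : PacksN cap (a' ::ₘ S) k := by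
  obtain ⟨B, hc, hsum, hB⟩ := h
  have ha : a ∈ B.sum := by rw [hsum]; simp
  obtain ⟨b0, hb0, hab0⟩ := Multiset.mem_join.1 ha
  obtain ⟨B', rfl⟩ := Multiset.exists_cons_of_mem hb0
  obtain ⟨r, rfl⟩ := Multiset.exists_cons_of_mem hab0
  have hsum' : r + B'.sum = S := by
    have h1 : a ::ₘ (r + B'.sum) = a ::ₘ S := by
      have : (a ::ₘ r) + B'.sum = a ::ₘ S := by simpa using hsum
      rw [Multiset.cons_add] at this
      exact this
    exact (Multiset.cons_inj_right a).1 h1
  refine ⟨(a' ::ₘ r) ::ₘ B', by simpa using hc, ?_, ?_⟩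
  · rw [Multiset.sum_cons, Multiset.cons_add, hsum']
  · intro b hb
    rcases Multiset.mem_cons.1 hb with rfl | hb
    · have := hB _ (Multiset.mem_cons_self _ _)
      simp at this
      simp
      omega
    · exact hB b (Multiset.mem_cons_of_mem hb)

theorem PacksN.of_add {cap : ℕ} {S : Multiset ℕ} {k : ℕ} (T : Multiset ℕ) :
    PacksN cap (S + T) k → PacksN cap S k := by
  induction T using Multiset.induction_on with
  | empty => intro h; simpa using h
  | cons a T ih =>
    intro h
    rw [Multiset.add_cons] at h
    exact ih h.drop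

theorem PacksN.of_le {cap : ℕ} {S S' : Multiset ℕ} {k : ℕ} (hle : S' ≤ S)
    (h : PacksN cap S k) : PacksN cap S' k := by
  obtain ⟨T, rfl⟩ := Multiset.le_iff_exists_add.1 hle
  exact PacksN.of_add T h

/-- replace at least `m` items, all of size at least `c`, by exactly `m` items of size `c` -/
theorem PacksN.to_replicate {cap c k : ℕ} (S : Multiset ℕ) :
    ∀ (I : Multiset ℕ) (m : ℕ), (∀ x ∈ S, c ≤ x) → m ≤ card S → PacksN cap (I + S) k →
      PacksN cap (I + Multiset.replicate m c) k := by
  induction S using Multiset.induction_on with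
  | empty =>
    intro I m _ hm h
    have : m = 0 := by simpa using hm
    subst this
    simpa using h
  | cons x S ih =>
    intro I m hx hm h
    cases m with
    | zero =>
      simp only [Multiset.replicate_zero, add_zero]
      exact PacksN.of_add _ h
    | succ m =>
      rw [Multiset.add_cons] at h
      have h1 := h.shrink (hx x (Multiset.mem_cons_self _ _))
      have h2 : PacksN cap ((c ::ₘ I) + S) k := by rwa [Multiset.cons_add]
      have h3 := ih (c ::ₘ I) m (fun y hy => hx y (Multiset.mem_cons_of_mem hy))
        (by simpa using hm) h2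
      rw [Multiset.replicate_succ, Multiset.add_cons]
      rwa [Multiset.cons_add] at h3

theorem le_of_le_add_replicate {R A : Multiset ℕ} {s : ℕ} (hs : s ∉ R) :
    ∀ f : ℕ, R ≤ A + Multiset.replicate f s → R ≤ A := by
  intro f
  induction f with
  | zero => intro h; simpa using h
  | succ f ih =>
    intro h
    rw [Multiset.replicate_succ, Multiset.add_cons] at h
    exact ih ((Multiset.le_cons_of_notMem hs).1 h)

/-- domination: a family `R` of at least `card U + t` items taken from `U` and `f` copies of the
largest size `s` can be shrunk to `U` together with `t` copies of `s` -/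
theorem PacksN.dominate {cap s k t : ℕ} (U : Multiset ℕ) :
    ∀ (I R : Multiset ℕ) (f : ℕ), (∀ x ∈ U, x ≤ s) → R ≤ U + Multiset.replicate f s →
      card U + t ≤ card R → PacksN cap (I + R) k →
      PacksN cap (I + U + Multiset.replicate t s) k := by
  induction U using Multiset.induction_on with
  | empty =>
    intro I R f _ hR hc h
    simp only [zero_add] at hR
    obtain ⟨j, _, rfl⟩ := Multiset.le_replicate_iff.1 hR
    simp only [Multiset.card_zero, zero_add, Multiset.card_replicate] at hc
    simp only [add_zero]
    refine PacksN.of_le ?_ h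
    gcongr
  | cons u U ih =>
    intro I R f hU hR hc h
    have hU' : ∀ x ∈ U, x ≤ s := fun x hx => hU x (Multiset.mem_cons_of_mem hx)
    have goal_eq : I + (u ::ₘ U) + Multiset.replicate t s
        = (u ::ₘ I) + U + Multiset.replicate t s := by
      simp [Multiset.add_cons, Multiset.cons_add]
    rw [goal_eq]
    by_cases hu : u ∈ R
    · obtain ⟨R', rfl⟩ := Multiset.exists_cons_of_mem hu
      rw [Multiset.cons_add] at hR
      have hR' := (Multiset.cons_le_cons_iff u).1 hR
      refine ih (u ::ₘ I) R' f hU' hR' (by simpa [add_right_comm] using hc) ?_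
      simpa [Multiset.add_cons, Multiset.cons_add] using h
    · rw [Multiset.cons_add] at hR
      have hR1 := (Multiset.le_cons_of_notMem hu).1 hR
      have hsR : s ∈ R := by
        by_contra hs
        have := Multiset.card_le_card (le_of_le_add_replicate hs f hR1)
        simp at hc
        omega
      obtain ⟨R', rfl⟩ := Multiset.exists_cons_of_mem hsR
      cases f with
      | zero =>
        exfalso
        simp only [Multiset.replicate_zero, add_zero] at hR1
        have := Multiset.card_le_card hR1
        simp at hc this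
        omega
      | succ f =>
        rw [Multiset.replicate_succ, Multiset.add_cons] at hR1
        have hR' := (Multiset.cons_le_cons_iff s).1 hR1
        rw [Multiset.add_cons] at h
        have h1 := h.shrink (hU u (Multiset.mem_cons_self _ _))
        refine ih (u ::ₘ I) R' f hU' hR' (by simpa [add_right_comm] using hc) ?_
        simpa [Multiset.add_cons, Multiset.cons_add] using h1

end Vale.Agent.P302
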