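import Vale.Agent.P302.GSearch

namespace Vale.Agent.P302

open Multiset

/-- peel off the bins of all the very large pieces `Bs` (each larger than `τ1`): their companions
`R` are pieces of size at most `τ2` -/
theorem peel_all (cap τ1 τ2 : ℕ) (hτ : τ2 ≤ τ1) (hcap : cap < τ1 + τ2 + 2) :
    ∀ (Bs : List ℕ) (S : Multiset ℕ) (k : ℕ), (∀ x ∈ Bs, τ1 < x) →
      PacksN cap ((Bs : Multiset ℕ) + S) (Bs.length + k) →
      ∃ R : Multiset ℕ, R ≤ S ∧ (∀ y ∈ R, y ≤ τ2) ∧
        PacksN cap ((Bs : Multiset ℕ) + R) Bs.length ∧ PacksN cap (S - R) k := by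
  intro Bs
  induction Bs with
  | nil =>
    intro S k _ h
    refine ⟨0, by simp, by simp, ⟨0, by simp, by simp, by simp⟩, ?_⟩
    simpa using h
  | cons x Bs ih =>
    intro S k hx h
    have hx0 : τ1 < x := hx x (by simp)
    have hBs : ∀ y ∈ Bs, τ1 < y := fun y hy => hx y (by simp [hy])
    have h' : PacksN cap (x ::ₘ ((Bs : Multiset ℕ) + S)) ((Bs.length + k) + 1) := by
      have e1 : (((x :: Bs : List ℕ) : Multiset ℕ) + S) = x ::ₘ ((Bs : Multiset ℕ) + S) := by
        rw [← Multiset.cons_coe, Multiset.cons_add]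
      have e2 : (x :: Bs).length + k = (Bs.length + k) + 1 := by simp; omega
      rw [e1, e2] at h
      exact h
    obtain ⟨r, hr, hsum, hP⟩ := h'.peel
    have hrsmall : ∀ y ∈ r, y ≤ τ2 := by
      intro y hy
      have := Multiset.single_le_sum (fun _ _ => Nat.zero_le _) y hy
      omega
    have hrS : r ≤ S := by
      have h1 : r.filter (fun y => y ≤ τ2) = r := Multiset.filter_eq_self.2 hrsmall
      have h2 : r.filter (fun y => y ≤ τ2) ≤ ((Bs : Multiset ℕ) + S).filter (fun y => y ≤ τ2) :=
        Multiset.filter_le_filter _ hr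
      have h3 : (Bs : Multiset ℕ).filter (fun y => y ≤ τ2) = 0 := by
        apply Multiset.filter_eq_nil.2
        intro y hy
        have := hBs y (by simpa using hy)
        omega
      rw [Multiset.filter_add, h3, zero_add, h1] at h2
      exact h2.trans (Multiset.filter_le _ _)
    have hrest : ((Bs : Multiset ℕ) + S) - r = (Bs : Multiset ℕ) + (S - r) :=
      add_tsub_assoc_of_le hrS _
    rw [hrest] at hP
    obtain ⟨R, hR, hRs, hP1, hP2⟩ := ih (S - r) k hBs hP
    refine ⟨r + R, ?_, ?_, ?_, ?_⟩
    · have h5 : r + R ≤ r + (S - r) := by gcongr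
      rwa [add_tsub_cancel_of_le hrS] at h5
    · intro y hy
      rcases Multiset.mem_add.1 hy with hy | hy
      · exact hrsmall y hy
      · exact hRs y hy
    · obtain ⟨B, hc, hs, hB⟩ := hP1
      refine ⟨(x ::ₘ r) ::ₘ B, by simp [hc], ?_, ?_⟩
      · rw [Multiset.sum_cons, hs, ← Multiset.cons_coe]
        simp only [Multiset.cons_add]
        congr 1
        rw [← add_assoc, ← add_assoc, add_comm r]
      · intro b hb
        rcases Multiset.mem_cons.1 hb with rfl | hb
        · simpa using hsum
        · exact hB b hb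
    · rwa [tsub_add_eq_tsub_tsub]

/-- the splitting criterion: very large pieces `Bs`, large pieces `bigs`, small pieces `own` and
`f` fillers of size `s` -/
theorem not_packsN_of_split (cap τ1 τ2 c s : ℕ) (Bs bigs own : List ℕ) (f k0 h t : ℕ)
    (h1 : ∀ x ∈ Bs, τ1 < x) (h2 : ∀ x ∈ bigs, τ2 < x) (h3 : ∀ x ∈ own, c ≤ x ∧ x ≤ s)
    (hcs : c ≤ s) (hτ : τ2 ≤ τ1) (hcap : cap < τ1 + τ2 + 2)
    (hf : h + t ≤ f)
    (hA : packB cap k0 (bigs ++ List.replicate (h + 1) c) = false)
    (hG : packB cap Bs.length (Bs ++ (List.replicate t s ++ own)) = false) :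
    ¬ PacksN cap ((Bs ++ (bigs ++ (own ++ List.replicate f s)) : List ℕ) : Multiset ℕ)
      (Bs.length + k0) := by
  intro hP
  set sm : Multiset ℕ := (own : Multiset ℕ) + Multiset.replicate f s with hsm
  have e0 : ((Bs ++ (bigs ++ (own ++ List.replicate f s)) : List ℕ) : Multiset ℕ)
      = (Bs : Multiset ℕ) + ((bigs : Multiset ℕ) + sm) := by
    simp [hsm, ← Multiset.coe_add, Multiset.coe_replicate]
  rw [e0] at hP
  obtain ⟨R, hR, hRs, hP1, hP2⟩ := peel_all cap τ1 τ2 hτ hcap Bs _ k0 h1 hP
  have hRsm : R ≤ sm := by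
    have g1 : R.filter (fun y => y ≤ τ2) = R := Multiset.filter_eq_self.2 hRs
    have g2 : R.filter (fun y => y ≤ τ2) ≤ ((bigs : Multiset ℕ) + sm).filter (fun y => y ≤ τ2) :=
      Multiset.filter_le_filter _ hR
    have g3 : (bigs : Multiset ℕ).filter (fun y => y ≤ τ2) = 0 := by
      apply Multiset.filter_eq_nil.2
      intro y hy
      have := h2 y (by simpa using hy)
      omega
    rw [Multiset.filter_add, g3, zero_add, g1] at g2
    exact g2.trans (Multiset.filter_le _ _)
  have hrest : ((bigs : Multiset ℕ) + sm) - R = (bigs : Multiset ℕ) + (sm - R) :=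
    add_tsub_assoc_of_le hRsm _
  rw [hrest] at hP2
  have hcard : card R + card (sm - R) = own.length + f := by
    have : R + (sm - R) = sm := add_tsub_cancel_of_le hRsm
    have h4 := congrArg card this
    rw [Multiset.card_add] at h4
    rw [h4, hsm]
    simp
  have hsmc : ∀ x ∈ sm, c ≤ x := by
    intro x hx
    rcases Multiset.mem_add.1 hx with hx | hx
    · exact (h3 x (by simpa using hx)).1
    · rw [Multiset.eq_of_mem_replicate hx]; exact hcs
  by_cases hcase : h + 1 ≤ card (sm - R)
  · have hq := PacksN.to_replicate (cap := cap) (c := c) (k := k0) (sm - R) (bigs : Multiset ℕ)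
      (h + 1) (fun x hx => hsmc x (Multiset.mem_of_le (Multiset.sub_le_self _ _) hx)) hcase hP2
    have e1 : ((bigs ++ List.replicate (h + 1) c : List ℕ) : Multiset ℕ)
        = (bigs : Multiset ℕ) + Multiset.replicate (h + 1) c := by
      simp [← Multiset.coe_add, Multiset.coe_replicate]
    rw [← e1] at hq
    have := packB_of_packsN cap k0 _ hq
    rw [hA] at this
    exact Bool.false_ne_true this
  · have hcR : card (own : Multiset ℕ) + t ≤ card R := by
      simp only [Multiset.coe_card]
      omega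
    have hq := PacksN.dominate (cap := cap) (s := s) (k := Bs.length) (t := t)
      (own : Multiset ℕ) (Bs : Multiset ℕ) R f
      (fun x hx => (h3 x (by simpa using hx)).2) hRsm hcR hP1
    have e1 : ((Bs ++ (List.replicate t s ++ own) : List ℕ) : Multiset ℕ)
        = (Bs : Multiset ℕ) + (own : Multiset ℕ) + Multiset.replicate t s := by
      simp only [← Multiset.coe_add, ← Multiset.coe_replicate]
      rw [add_assoc, add_comm (own : Multiset ℕ)]
    rw [← e1] at hq
    have := packB_of_packsN cap Bs.length _ hq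
    rw [hG] at this
    exact Bool.false_ne_true this

/-- the splitting criterion, abstract form: very large pieces `Bs`, large pieces `bigs`, small pieces `own` and
`f` fillers of size `s` -/
theorem not_packsN_of_split_abs (cap τ1 τ2 c s : ℕ) (Bs bigs own : List ℕ) (f k0 h t : ℕ)
    (h1 : ∀ x ∈ Bs, τ1 < x) (h2 : ∀ x ∈ bigs, τ2 < x) (h3 : ∀ x ∈ own, c ≤ x ∧ x ≤ s)
    (hcs : c ≤ s) (hτ : τ2 ≤ τ1) (hcap : cap < τ1 + τ2 + 2)
    (hf : h + t ≤ f)
    (hA : ¬ PacksN cap ((bigs : Multiset ℕ) + Multiset.replicate (h + 1) c) k0)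
    (hG : ¬ PacksN cap ((Bs : Multiset ℕ) + (own : Multiset ℕ) + Multiset.replicate t s)
      Bs.length) :
    ¬ PacksN cap ((Bs ++ (bigs ++ (own ++ List.replicate f s)) : List ℕ) : Multiset ℕ)
      (Bs.length + k0) := by
  intro hP
  set sm : Multiset ℕ := (own : Multiset ℕ) + Multiset.replicate f s with hsm
  have e0 : ((Bs ++ (bigs ++ (own ++ List.replicate f s)) : List ℕ) : Multiset ℕ)
      = (Bs : Multiset ℕ) + ((bigs : Multiset ℕ) + sm) := by
    simp [hsm, ← Multiset.coe_add, Multiset.coe_replicate]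
  rw [e0] at hP
  obtain ⟨R, hR, hRs, hP1, hP2⟩ := peel_all cap τ1 τ2 hτ hcap Bs _ k0 h1 hP
  have hRsm : R ≤ sm := by
    have g1 : R.filter (fun y => y ≤ τ2) = R := Multiset.filter_eq_self.2 hRs
    have g2 : R.filter (fun y => y ≤ τ2) ≤ ((bigs : Multiset ℕ) + sm).filter (fun y => y ≤ τ2) :=
      Multiset.filter_le_filter _ hR
    have g3 : (bigs : Multiset ℕ).filter (fun y => y ≤ τ2) = 0 := by
      apply Multiset.filter_eq_nil.2
      intro y hy
      have := h2 y (by simpa using hy)
      omega
    rw [Multiset.filter_add, g3, zero_add, g1] at g2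
    exact g2.trans (Multiset.filter_le _ _)
  have hrest : ((bigs : Multiset ℕ) + sm) - R = (bigs : Multiset ℕ) + (sm - R) :=
    add_tsub_assoc_of_le hRsm _
  rw [hrest] at hP2
  have hcard : card R + card (sm - R) = own.length + f := by
    have : R + (sm - R) = sm := add_tsub_cancel_of_le hRsm
    have h4 := congrArg card this
    rw [Multiset.card_add] at h4
    rw [h4, hsm]
    simp
  have hsmc : ∀ x ∈ sm, c ≤ x := by
    intro x hx
    rcases Multiset.mem_add.1 hx with hx | hx
    · exact (h3 x (by simpa using hx)).1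
    · rw [Multiset.eq_of_mem_replicate hx]; exact hcs
  by_cases hcase : h + 1 ≤ card (sm - R)
  · have hq := PacksN.to_replicate (cap := cap) (c := c) (k := k0) (sm - R) (bigs : Multiset ℕ)
      (h + 1) (fun x hx => hsmc x (Multiset.mem_of_le (Multiset.sub_le_self _ _) hx)) hcase hP2
    exact hA hq
  · have hcR : card (own : Multiset ℕ) + t ≤ card R := by
      simp only [Multiset.coe_card]
      omega
    have hq := PacksN.dominate (cap := cap) (s := s) (k := Bs.length) (t := t)
      (own : Multiset ℕ) (Bs : Multiset ℕ) R f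
      (fun x hx => (h3 x (by simpa using hx)).2) hRsm hcR hP1
    exact hG hq

/-- passage from rational sizes to integer sizes -/
theorem packsN_of_packs (L : ℕ) (hL : 0 < L) (items : List ℕ) (k : ℕ)
    (h : Packs (mkInst L items) k) : PacksN L (items : Multiset ℕ) k := by
  obtain ⟨B, hc, hsum, hb⟩ := h
  have hLq : (L : ℚ) ≠ 0 := by exact_mod_cast hL.ne'
  let fq : ℕ → ℚ := fun n => (n : ℚ) / (L : ℚ)
  let g : ℚ → ℕ := fun q => ⌊q * (L : ℚ)⌋₊
  have hgf : ∀ n : ℕ, g (fq n) = n := by
    intro n
    simp only [g, fq]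
    rw [div_mul_cancel₀ _ hLq]
    exact Nat.floor_natCast n
  have hI : mkInst L items = (items : Multiset ℕ).map fq := by
    simp [mkInst, fq]
  let B' : Multiset (Multiset ℕ) := B.map (Multiset.map g)
  have hsum' : B'.sum = (items : Multiset ℕ) := by
    have h1 : B'.sum = (B.sum).map g := by
      have := Multiset.map_join g B
      simpa [Multiset.join, B'] using this.symm
    rw [h1, hsum, hI, Multiset.map_map]
    have : (items : Multiset ℕ).map (g ∘ fq) = (items : Multiset ℕ).map id := by
      apply Multiset.map_congr rfl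
      intro x _
      simp [hgf]
    rw [this, Multiset.map_id]
  have hmem : ∀ b ∈ B, ∀ q ∈ b, ∃ n ∈ items, q = fq n := by
    intro b hbB q hq
    have : q ∈ B.sum := Multiset.mem_join.2 ⟨b, hbB, hq⟩
    rw [hsum, hI] at this
    obtain ⟨n, hn, rfl⟩ := Multiset.mem_map.1 this
    exact ⟨n, by simpa using hn, rfl⟩
  refine ⟨B', by simp [B', hc], hsum', ?_⟩
  intro b' hb'
  obtain ⟨b, hbB, rfl⟩ := Multiset.mem_map.1 hb'
  have hback : (b.map g).map fq = b := by
    rw [Multiset.map_map]
    have : b.map (fq ∘ g) = b.map id := by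
      apply Multiset.map_congr rfl
      intro q hq
      obtain ⟨n, _, rfl⟩ := hmem b hbB q hq
      simp [hgf]
    rw [this, Multiset.map_id]
  have hle : ((b.map g).sum : ℚ) / (L : ℚ) ≤ 1 := by
    have h0 := hb b hbB
    rw [← hback] at h0
    have h1 := sum_map_div L (b.map g)
    rw [← h1]
    exact h0
  rw [div_le_one (by exact_mod_cast hL)] at hle
  exact_mod_cast hle

end Vale.Agent.P302
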