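import Vale.Agent.P302.GSplit
import Vale.Agent.P302.Cov

namespace Vale.Agent.P302

open Multiset

theorem card_le_two_of_small (s : ℕ) (r : Multiset ℕ) (h : ∀ y ∈ r, 2 * s < 3 * y)
    (hs : r.sum ≤ 2 * s) : card r ≤ 2 := by
  by_contra hc
  have h1 : card (r.map (fun y => 3 * y)) • (2 * s + 1) ≤ (r.map (fun y => 3 * y)).sum := by
    apply Multiset.card_nsmul_le_sum
    intro y hy
    obtain ⟨x, hx, rfl⟩ := Multiset.mem_map.1 hy
    exact h x hx
  have h2 : (r.map (fun y => 3 * y)).sum = 3 * r.sum := by
    rw [Multiset.sum_map_mul_left]; simp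
  rw [h2] at h1
  simp at h1
  have h3 : 3 ≤ card r := by omega
  nlinarith

/-- a packing of the two-slot gadget (one very large piece per bin) gives a family of blocks -/
theorem gadget_cov (cap s Th rho : ℕ) (h4 : 4 * s < cap) (hr : rho ≤ Th) :
    ∀ (Bs : List ℕ) (S : Multiset ℕ),
      (∀ x ∈ Bs, cap ≤ x + 2 * s ∧ x + 2 * s ≤ cap + rho) →
      (∀ y ∈ S, y ≤ s ∧ 2 * s < 3 * y) →
      PacksN cap ((Bs : Multiset ℕ) + S) Bs.length →
      ∃ u, card S + u = 2 * Bs.length ∧
        Cov Th (((Bs.map (fun x => Th + cap - 2 * s - x) : List ℕ) : Multiset ℕ)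
          + S.map (fun y => s - y) + Multiset.replicate u rho) Bs.length := by
  intro Bs
  induction Bs with
  | nil =>
    intro S _ _ h
    obtain ⟨B, hc, hsum, _⟩ := h
    have hB : B = 0 := Multiset.card_eq_zero.1 (by simpa using hc)
    subst hB
    have hS : S = 0 := by simpa using hsum.symm
    subst hS
    exact ⟨0, by simp, 0, by simp, by simp, by simp⟩
  | cons x Bs ih =>
    intro S hx hS h
    obtain ⟨hx1, hx2⟩ := hx x (by simp)
    have hBs : ∀ y ∈ Bs, cap ≤ y + 2 * s ∧ y + 2 * s ≤ cap + rho :=
      fun y hy => hx y (by simp [hy])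
    have h' : PacksN cap (x ::ₘ ((Bs : Multiset ℕ) + S)) (Bs.length + 1) := by
      have e1 : (((x :: Bs : List ℕ) : Multiset ℕ) + S) = x ::ₘ ((Bs : Multiset ℕ) + S) := by
        rw [← Multiset.cons_coe, Multiset.cons_add]
      rw [e1] at h
      simpa using h
    obtain ⟨r, hrle, hsum, hP⟩ := h'.peel
    have hrsmall : ∀ y ∈ r, y ≤ 2 * s := by
      intro y hy
      have := Multiset.single_le_sum (fun _ _ => Nat.zero_le _) y hy
      omega
    have hrS : r ≤ S := by
      have h1 : r.filter (fun y => y ≤ 2 * s) = r := Multiset.filter_eq_self.2 hrsmall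
      have h2 : r.filter (fun y => y ≤ 2 * s)
          ≤ ((Bs : Multiset ℕ) + S).filter (fun y => y ≤ 2 * s) :=
        Multiset.filter_le_filter _ hrle
      have h3 : (Bs : Multiset ℕ).filter (fun y => y ≤ 2 * s) = 0 := by
        apply Multiset.filter_eq_nil.2
        intro y hy
        have := (hBs y (by simpa using hy)).1
        omega
      rw [Multiset.filter_add, h3, zero_add, h1] at h2
      exact h2.trans (Multiset.filter_le _ _)
    have hrest : ((Bs : Multiset ℕ) + S) - r = (Bs : Multiset ℕ) + (S - r) :=
      add_tsub_assoc_of_le hrS _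
    rw [hrest] at hP
    have hrmem : ∀ y ∈ r, y ≤ s ∧ 2 * s < 3 * y := fun y hy => hS y (Multiset.mem_of_le hrS hy)
    have hcr : card r ≤ 2 :=
      card_le_two_of_small s r (fun y hy => (hrmem y hy).2) (by omega)
    obtain ⟨u', hu', B, hBc, hBs', hBb⟩ :=
      ih (S - r) hBs (fun y hy => hS y (Multiset.mem_of_le (Multiset.sub_le_self _ _) hy)) hP
    have hSsplit : r + (S - r) = S := add_tsub_cancel_of_le hrS
    have hcardS : card r + card (S - r) = card S := by
      rw [← Multiset.card_add, hSsplit]
    refine ⟨u' + (2 - card r), ?_, ?_⟩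
    · simp only [List.length_cons]
      omega
    · set fx : ℕ := Th + cap - 2 * s - x with hfx
      set blk : Multiset ℕ :=
        fx ::ₘ (r.map (fun y => s - y) + Multiset.replicate (2 - card r) rho) with hblk
      refine ⟨blk ::ₘ B, by simp [hBc], ?_, ?_⟩
      · have e1 : (((x :: Bs).map (fun x => Th + cap - 2 * s - x) : List ℕ) : Multiset ℕ)
            + S.map (fun y => s - y) + Multiset.replicate (u' + (2 - card r)) rho
            = blk + ((((Bs.map (fun x => Th + cap - 2 * s - x) : List ℕ) : Multiset ℕ))
              + (S - r).map (fun y => s - y) + Multiset.replicate u' rho) := by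
          have e2 : S.map (fun y => s - y)
              = r.map (fun y => s - y) + (S - r).map (fun y => s - y) := by
            rw [← Multiset.map_add, hSsplit]
          rw [e2, Multiset.replicate_add, List.map_cons, ← Multiset.cons_coe, hblk]
          simp only [Multiset.cons_add]
          congr 1
          abel
        rw [e1, Multiset.sum_cons]
        gcongr
      · intro b hb
        rcases Multiset.mem_cons.1 hb with rfl | hb
        · refine ⟨?_, ?_⟩
          · simp only [hblk, Multiset.card_cons, Multiset.card_add, Multiset.card_map,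
              Multiset.card_replicate]
            omega
          · have hc3 : card r = 0 ∨ card r = 1 ∨ card r = 2 := by omega
            rcases hc3 with hc0 | hc1 | hc2
            · have hr0 : r = 0 := Multiset.card_eq_zero.1 hc0
              subst hr0
              simp only [hblk, Multiset.sum_cons, Multiset.map_zero, zero_add, Multiset.card_zero,
                Multiset.sum_replicate, smul_eq_mul]
              omega
            · obtain ⟨y, rfl⟩ := Multiset.card_eq_one.1 hc1
              simp only [hblk, Multiset.sum_cons, Multiset.map_singleton, Multiset.sum_add,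
                Multiset.sum_singleton, Multiset.card_singleton, Multiset.sum_replicate,
                smul_eq_mul]
              omega
            · obtain ⟨y1, y2, rfl⟩ := Multiset.card_eq_two.1 hc2
              have hy1 := (hrmem y1 (by simp)).1
              have hy2 := (hrmem y2 (by simp)).1
              have hs2 : x + (y1 + y2) ≤ cap := by
                simpa [Multiset.insert_eq_cons] using hsum
              simp only [hblk, Multiset.insert_eq_cons, Multiset.sum_cons, Multiset.map_cons,
                Multiset.map_singleton, Multiset.sum_add, Multiset.sum_singleton,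
                Multiset.sum_replicate, smul_eq_mul]
              omega
        · exact hBb b hb

/-- the splitting criterion with a propositional hypothesis on the gadget part -/
theorem not_packsN_of_split_prop (cap τ1 τ2 c s : ℕ) (Bs bigs own : List ℕ) (f k0 h t : ℕ)
    (h1 : ∀ x ∈ Bs, τ1 < x) (h2 : ∀ x ∈ bigs, τ2 < x) (h3 : ∀ x ∈ own, c ≤ x ∧ x ≤ s)
    (hcs : c ≤ s) (hτ : τ2 ≤ τ1) (hcap : cap < τ1 + τ2 + 2)
    (hf : h + t ≤ f)
    (hA : packB cap k0 (bigs ++ List.replicate (h + 1) c) = false)
    (hG : ¬ PacksN cap ((Bs ++ (List.replicate t s ++ own) : List ℕ) : Multiset ℕ) Bs.length) :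
    ¬ PacksN cap ((Bs ++ (bigs ++ (own ++ List.replicate f s)) : List ℕ) : Multiset ℕ)
      (Bs.length + k0) := by
  intro hP
  set sm : Multiset ℕ := (own : Multiset ℕ) + Multiset.replicate f s with hsm
  have e0 : ((Bs ++ (bigs ++ (own ++ List.replicate f s)) : List ℕ) : Multiset ℕ)
      = (Bs : Multiset ℕ) + ((bigs : Multiset ℕ) + sm) := by
    simp [hsm, ← Multiset.coe_add, Multiset.coe_replicate]
  rw [e0] at hP
  obtain ⟨R, hR, hRs, hP1, hP2⟩ := peel_all cap τ1 τ2 hτ hcap Bs _ k0 h1 hP
  have hRsm : R ≤ sm := by
    have g1 : R.filter (fun y => y ≤ τ2) = R := Multiset.filter_eq_self.2 hRs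
    have g2 : R.filter (fun y => y ≤ τ2) ≤ ((bigs : Multiset ℕ) + sm).filter (fun y => y ≤ τ2) :=
      Multiset.filter_le_filter _ hR
    have g3 : (bigs : Multiset ℕ).filter (fun y => y ≤ τ2) = 0 := by
      apply Multiset.filter_eq_nil.2
      intro y hy
      have := h2 y (by simpa using hy)
      omega
    rw [Multiset.filter_add, g3, zero_add, g1] at g2
    exact g2.trans (Multiset.filter_le _ _)
  have hrest : ((bigs : Multiset ℕ) + sm) - R = (bigs : Multiset ℕ) + (sm - R) :=
    add_tsub_assoc_of_le hRsm _
  rw [hrest] at hP2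
  have hcard : card R + card (sm - R) = own.length + f := by
    have : R + (sm - R) = sm := add_tsub_cancel_of_le hRsm
    have h4 := congrArg card this
    rw [Multiset.card_add] at h4
    rw [h4, hsm]
    simp
  have hsmc : ∀ x ∈ sm, c ≤ x := by
    intro x hx
    rcases Multiset.mem_add.1 hx with hx | hx
    · exact (h3 x (by simpa using hx)).1
    · rw [Multiset.eq_of_mem_replicate hx]; exact hcs
  by_cases hcase : h + 1 ≤ card (sm - R)
  · have hq := PacksN.to_replicate (cap := cap) (c := c) (k := k0) (sm - R) (bigs : Multiset ℕ)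
      (h + 1) (fun x hx => hsmc x (Multiset.mem_of_le (Multiset.sub_le_self _ _) hx)) hcase hP2
    have e1 : ((bigs ++ List.replicate (h + 1) c : List ℕ) : Multiset ℕ)
        = (bigs : Multiset ℕ) + Multiset.replicate (h + 1) c := by
      simp [← Multiset.coe_add, Multiset.coe_replicate]
    rw [← e1] at hq
    have := packB_of_packsN cap k0 _ hq
    rw [hA] at this
    exact Bool.false_ne_true this
  · have hcR : card (own : Multiset ℕ) + t ≤ card R := by
      simp only [Multiset.coe_card]
      omega
    have hq := PacksN.dominate (cap := cap) (s := s) (k := Bs.length) (t := t)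
      (own : Multiset ℕ) (Bs : Multiset ℕ) R f
      (fun x hx => (h3 x (by simpa using hx)).2) hRsm hcR hP1
    have e1 : ((Bs ++ (List.replicate t s ++ own) : List ℕ) : Multiset ℕ)
        = (Bs : Multiset ℕ) + (own : Multiset ℕ) + Multiset.replicate t s := by
      simp only [← Multiset.coe_add, ← Multiset.coe_replicate]
      rw [add_assoc, add_comm (own : Multiset ℕ)]
    rw [← e1] at hq
    exact hG hq

end Vale.Agent.P302
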