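import Vale.Agent.P302.Cov

namespace Vale.Agent.P302

open Multiset

/-- the smallest element of the list that satisfies `p` -/
def minSat (p : ℕ → Bool) : List ℕ → Option ℕ
  | [] => none
  | y :: l =>
    match minSat p l with
    | none => if p y then some y else none
    | some z => if p y && decide (y ≤ z) then some y else some z

theorem minSat_none {p : ℕ → Bool} : ∀ {l : List ℕ}, minSat p l = none → ∀ y ∈ l, p y = false := by
  intro l
  induction l with
  | nil => intro _ y hy; simp at hy
  | cons a l ih =>
    intro h y hy
    simp only [minSat] at h
    cases hm : minSat p l with
    | none =>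
      rw [hm] at h
      simp only at h
      by_cases hpa : p a = true
      · simp [hpa] at h
      · rcases List.mem_cons.1 hy with rfl | hy'
        · simpa using hpa
        · exact ih hm y hy'
    | some z =>
      rw [hm] at h
      simp only at h
      split_ifs at h

theorem minSat_some {p : ℕ → Bool} : ∀ {l : List ℕ} {z : ℕ}, minSat p l = some z →
    z ∈ l ∧ p z = true ∧ ∀ y ∈ l, p y = true → z ≤ y := by
  intro l
  induction l with
  | nil => intro z h; simp [minSat] at h
  | cons a l ih =>
    intro z h
    simp only [minSat] at h
    cases hm : minSat p l with
    | none =>
      rw [hm] at h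
      simp only at h
      by_cases hpa : p a = true
      · simp only [hpa, if_true, Option.some.injEq] at h
        subst h
        refine ⟨List.mem_cons_self, hpa, ?_⟩
        intro y hy hpy
        rcases List.mem_cons.1 hy with rfl | hy'
        · exact le_rfl
        · have := minSat_none hm y hy'
          rw [this] at hpy
          exact absurd hpy (by simp)
      · simp [hpa] at h
    | some w =>
      rw [hm] at h
      simp only at h
      obtain ⟨hw1, hw2, hw3⟩ := ih hm
      by_cases hc : (p a && decide (a ≤ w)) = true
      · simp only [hc, if_true, Option.some.injEq] at h
        subst h
        simp only [Bool.and_eq_true, decide_eq_true_eq] at hc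
        refine ⟨List.mem_cons_self, hc.1, ?_⟩
        intro y hy hpy
        rcases List.mem_cons.1 hy with rfl | hy'
        · exact le_rfl
        · exact hc.2.trans (hw3 y hy' hpy)
      · simp only [hc] at h
        simp only [Bool.false_eq_true, if_false, Option.some.injEq] at h
        subst h
        refine ⟨List.mem_cons_of_mem _ hw1, hw2, ?_⟩
        intro y hy hpy
        rcases List.mem_cons.1 hy with rfl | hy'
        · simp only [Bool.and_eq_true, decide_eq_true_eq, not_and, not_le] at hc
          exact (hc hpy).le
        · exact hw3 y hy' hpy

/-- search over the leading items of one level.  `items` are the items of the level, `j` is the number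
of items already taken from the coarser levels, `V j` bounds what the coarser levels can still do,
`need` is the number of blocks that are still wanted.  The value `false` certifies impossibility. -/
def gen (Θ M : ℕ) (V : ℕ → ℕ) (nR : ℕ) : ℕ → List ℕ → ℕ → ℕ → Bool
  | 0, _, _, _ => true
  | _ + 1, _, _, 0 => true
  | _ + 1, [], j, nd + 1 => decide (nd + 1 ≤ V j)
  | f + 1, x :: tl, j, nd + 1 =>
    if 3 * x < M then
      (if tl.all (fun y => decide (3 * y < M)) then decide (nd + 1 ≤ V j) else true)
    else if (tl.countP (fun y => decide (M ≤ 3 * y))) + 1 + V j < nd + 1 then false
    else
      (match minSat (fun y => decide (Θ ≤ x + y)) tl with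
        | none => false
        | some y => gen Θ M V nR f (tl.erase y) j nd) ||
      (tl.any fun y => !decide (Θ ≤ x + y) &&
        (match minSat (fun z => decide (Θ ≤ x + y + z)) (tl.erase y) with
          | none => false
          | some z => decide (z ≤ y) && gen Θ M V nR f ((tl.erase y).erase z) j nd)) ||
      (decide (j < nR) && gen Θ M V nR f tl (j + 1) nd) ||
      gen Θ M V nR f tl j (nd + 1)

section sound

variable {Θ M : ℕ} {V : ℕ → ℕ} {R : List ℕ}

theorem cov_count (hM : 0 < M) (hΘ : M ∣ Θ) (hR : ∀ r ∈ R, M ∣ r)
    (hV : ∀ j, ¬ Cov Θ ((R.drop j : List ℕ) : Multiset ℕ) (V j + 1)) (j : ℕ)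
    (Tm : Multiset ℕ) (hT : ∀ t ∈ Tm, 3 * t < M) :
    ∀ (Lm : Multiset ℕ) (k : ℕ), Cov Θ (Lm + (Tm + ((R.drop j : List ℕ) : Multiset ℕ))) k →
      k ≤ card Lm + V j := by
  intro Lm
  induction Lm using Multiset.induction_on with
  | empty =>
    intro k hc
    rw [zero_add] at hc
    have h1 : Cov Θ ((R.drop j : List ℕ) : Multiset ℕ) k :=
      Cov.negl hM hΘ (fun r hr => hR r (List.mem_of_mem_drop (by simpa using hr))) hT hc
    by_contra hlt
    exact hV j (Cov.le (by simp at hlt; omega) h1)
  | cons x Lm ih =>
    intro k hc
    rw [Multiset.cons_add] at hc
    rcases hc.peel with h | ⟨b', k', _, _, _, rfl, h⟩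
    · have := ih k h
      simp only [Multiset.card_cons]; omega
    · have := ih k' (h.mono (Multiset.sub_le_self _ _))
      simp only [Multiset.card_cons]; omega

theorem gen_sound (hM : 0 < M) (hΘ : M ∣ Θ) (hR : ∀ r ∈ R, M ∣ r) (hRs : R.Pairwise (· ≤ ·))
    (hV : ∀ j, ¬ Cov Θ ((R.drop j : List ℕ) : Multiset ℕ) (V j + 1)) :
    ∀ (f : ℕ) (items : List ℕ) (j need : ℕ), (∀ x ∈ items, x < Θ) →
      gen Θ M V R.length f items j need = false →
      ¬ Cov Θ ((items : Multiset ℕ) + ((R.drop j : List ℕ) : Multiset ℕ)) need := by
  intro f
  induction f with
  | zero => intro items j need _ h; simp [gen] at h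
  | succ f ih =>
    intro items j need hlt h hc
    cases need with
    | zero => simp [gen] at h
    | succ nd =>
      cases items with
      | nil =>
        simp only [gen, decide_eq_false_iff_not, not_le] at h
        have h1 : Cov Θ ((R.drop j : List ℕ) : Multiset ℕ) (nd + 1) := by simpa using hc
        exact hV j (Cov.le (by omega) h1)
      | cons x tl =>
        have hxΘ : x < Θ := hlt x List.mem_cons_self
        have hltl : ∀ y ∈ tl, y < Θ := fun y hy => hlt y (List.mem_cons_of_mem _ hy)
        simp only [gen] at h
        split_ifs at h with h1 h2 h3
        · -- all items are tiny
          simp only [decide_eq_false_iff_not, not_le] at h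
          have hT : ∀ t ∈ ((x :: tl : List ℕ) : Multiset ℕ), 3 * t < M := by
            intro t ht
            rcases List.mem_cons.1 (by simpa using ht) with rfl | ht'
            · exact h1
            · have := List.all_eq_true.1 h2 t ht'
              simpa using this
          have h4 : Cov Θ ((R.drop j : List ℕ) : Multiset ℕ) (nd + 1) :=
            Cov.negl hM hΘ (fun r hr => hR r (List.mem_of_mem_drop (by simpa using hr))) hT hc
          exact hV j (Cov.le (by omega) h4)
        · -- counting bound
          let p : ℕ → Prop := fun y => M ≤ 3 * y
          have hsplit : ((x :: tl : List ℕ) : Multiset ℕ)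
              = ((x :: tl : List ℕ) : Multiset ℕ).filter p
                + ((x :: tl : List ℕ) : Multiset ℕ).filter (fun y => ¬ p y) :=
            (Multiset.filter_add_not p _).symm
          rw [hsplit, add_assoc] at hc
          have h5 := cov_count hM hΘ hR hV j _ (by
            intro t ht
            have := (Multiset.mem_filter.1 ht).2
            simp only [p] at this; omega) _ _ hc
          have h6 : card (((x :: tl : List ℕ) : Multiset ℕ).filter p)
              = tl.countP (fun y => decide (M ≤ 3 * y)) + 1 := by
            rw [← Multiset.countP_eq_card_filter, Multiset.coe_countP, List.countP_cons]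
            simp only [p]
            have : decide (M ≤ 3 * x) = true := by simp; omega
            simp [this]
          omega
        · simp only [Bool.or_eq_false_iff, Bool.and_eq_false_imp, decide_eq_true_eq] at h
          obtain ⟨⟨⟨hsingle, hpair⟩, hsteal⟩, hskip⟩ := h
          have hc' : Cov Θ (x ::ₘ ((tl : Multiset ℕ) + ((R.drop j : List ℕ) : Multiset ℕ))) (nd + 1) := by
            have : ((x :: tl : List ℕ) : Multiset ℕ) = x ::ₘ (tl : Multiset ℕ) := rfl
            rw [this, Multiset.cons_add] at hc
            exact hc
          -- the single branch, as a general fact
          have hS : ∀ y ∈ tl, Θ ≤ x + y →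
              ¬ Cov Θ (((tl : Multiset ℕ) + ((R.drop j : List ℕ) : Multiset ℕ)).erase y) nd := by
            intro y hy hxy hcy
            cases hm : minSat (fun y => decide (Θ ≤ x + y)) tl with
            | none =>
              have := minSat_none hm y hy
              simp at this; omega
            | some y0 =>
              rw [hm] at hsingle
              obtain ⟨hy0, _, hmin⟩ := minSat_some hm
              have hle : y0 ≤ y := hmin y hy (by simpa using hxy)
              have h7 := Cov.swap (r := y0) (y := y)
                (Multiset.mem_add.2 (Or.inl (by simpa using hy0)))
                (Multiset.mem_add.2 (Or.inl (by simpa using hy))) hle hcy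
              rw [Multiset.erase_add_left_pos _ (by simpa using hy0), Multiset.coe_erase] at h7
              exact ih _ j nd (fun z hz => hltl z (List.mem_of_mem_erase hz)) hsingle h7
          rcases hc'.peel with hA | ⟨b', k', hb', hcard, hsum, hk, hB⟩
          · exact ih tl j (nd + 1) hltl hskip hA
          · have hk' : k' = nd := by omega
            subst hk'
            by_cases hex : ∃ y ∈ b', y ∈ R.drop j
            · -- an item of the coarser levels is used
              obtain ⟨y, hyb, hyR⟩ := hex
              have hjl : j < R.length := by
                by_contra hge
                rw [List.drop_eq_nil_of_le (by omega)] at hyR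
                simp at hyR
              have hdrop : R.drop j = R[j] :: R.drop (j + 1) := List.drop_eq_getElem_cons hjl
              have hsorted : (R.drop j).Pairwise (· ≤ ·) := hRs.sublist (List.drop_sublist _ _)
              have hry : R[j] ≤ y := by
                rw [hdrop] at hyR hsorted
                rcases List.mem_cons.1 hyR with rfl | h'
                · exact le_rfl
                · exact (List.pairwise_cons.1 hsorted).1 y h'
              have h8 : Cov Θ (((tl : Multiset ℕ) + ((R.drop j : List ℕ) : Multiset ℕ)).erase y) k' := by
                refine hB.mono ?_
                rw [← Multiset.sub_singleton]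
                exact tsub_le_tsub_left (Multiset.singleton_le.2 hyb) _
              have hrmem : R[j] ∈ ((R.drop j : List ℕ) : Multiset ℕ) := by
                have h' : R[j] ∈ R.drop j := by
                  rw [hdrop]; exact List.mem_cons_self
                exact Multiset.mem_coe.2 h'
              have h9 := Cov.swap (r := R[j]) (y := y)
                (Multiset.mem_add.2 (Or.inr hrmem))
                (Multiset.mem_add.2 (Or.inr (by simpa using hyR))) hry h8
              rw [Multiset.erase_add_right_pos _ hrmem] at h9
              have h10 : ((R.drop j : List ℕ) : Multiset ℕ).erase R[j]
                  = ((R.drop (j + 1) : List ℕ) : Multiset ℕ) := by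
                rw [hdrop, Multiset.coe_erase, List.erase_cons_head]
              rw [h10] at h9
              exact ih tl (j + 1) k' hltl (hsteal hjl) h9
            · -- all other items of the block belong to the level
              have hnot : ∀ y ∈ b', y ∉ R.drop j := fun y hy hyR => hex ⟨y, hy, hyR⟩
              have hcases : card b' = 0 ∨ card b' = 1 ∨ card b' = 2 := by omega
              rcases hcases with h0 | h0 | h0
              · have : b' = 0 := Multiset.card_eq_zero.1 h0
                subst this
                simp at hsum; omega
              · obtain ⟨y, rfl⟩ := Multiset.card_eq_one.1 h0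
                have hy1 : y ∈ (tl : Multiset ℕ) + ((R.drop j : List ℕ) : Multiset ℕ) :=
                  Multiset.singleton_le.1 hb'
                have hytl : y ∈ tl := by
                  rcases Multiset.mem_add.1 hy1 with h' | h'
                  · simpa using h'
                  · exact absurd (by simpa using h') (hnot y (by simp))
                rw [Multiset.sub_singleton] at hB
                exact hS y hytl (by simpa using hsum) hB
              · have hex2 : ∃ y z : ℕ, b' = {y, z} ∧ z ≤ y := by
                  obtain ⟨u, w, huw⟩ := Multiset.card_eq_two.1 h0
                  rcases le_total w u with hwu | hwu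
                  · exact ⟨u, w, huw, hwu⟩
                  · exact ⟨w, u, by rw [huw, Multiset.pair_comm], hwu⟩
                obtain ⟨y, z, rfl, hzy⟩ := hex2
                have hy1 : y ∈ (tl : Multiset ℕ) + ((R.drop j : List ℕ) : Multiset ℕ) :=
                  Multiset.mem_of_le hb' (by simp)
                have hytl : y ∈ tl := by
                  rcases Multiset.mem_add.1 hy1 with h' | h'
                  · simpa using h'
                  · exact absurd (by simpa using h') (hnot y (by simp))
                have hsum' : Θ ≤ x + y + z := by
                  simp [Multiset.insert_eq_cons] at hsum; omega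
                have hsub : ((tl : Multiset ℕ) + ((R.drop j : List ℕ) : Multiset ℕ)) - {y, z}
                    = ((((tl : Multiset ℕ) + ((R.drop j : List ℕ) : Multiset ℕ)).erase y).erase z) := by
                  rw [Multiset.insert_eq_cons, Multiset.sub_cons, Multiset.sub_singleton]
                by_cases hxy : Θ ≤ x + y
                · refine hS y hytl hxy (hB.mono ?_)
                  rw [hsub]
                  exact Multiset.erase_le _ _
                · have hz1 : z ∈ (((tl : Multiset ℕ) + ((R.drop j : List ℕ) : Multiset ℕ)).erase y) := by
                    have h11 : ({y, z} : Multiset ℕ).erase y ≤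
                        (((tl : Multiset ℕ) + ((R.drop j : List ℕ) : Multiset ℕ)).erase y) :=
                      Multiset.erase_le_erase y hb'
                    rw [Multiset.insert_eq_cons, Multiset.erase_cons_head] at h11
                    exact Multiset.singleton_le.1 h11
                  rw [Multiset.erase_add_left_pos _ (by simpa using hytl), Multiset.coe_erase] at hz1
                  have hztl : z ∈ tl.erase y := by
                    rcases Multiset.mem_add.1 hz1 with h' | h'
                    · simpa using h'
                    · exact absurd (by simpa using h') (hnot z (by simp))
                  have hp := List.any_eq_false.1 hpair y hytl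
                  simp only [Bool.and_eq_true, Bool.not_eq_true', decide_eq_false_iff_not, not_and] at hp
                  have hp' := hp hxy
                  cases hm : minSat (fun z => decide (Θ ≤ x + y + z)) (tl.erase y) with
                  | none =>
                    have := minSat_none hm z hztl
                    simp at this; omega
                  | some z0 =>
                    rw [hm] at hp'
                    obtain ⟨hz0, _, hmin⟩ := minSat_some hm
                    have hle : z0 ≤ z := hmin z hztl (by simpa using hsum')
                    simp only [Bool.and_eq_true, decide_eq_true_eq, not_and, Bool.not_eq_true] at hp'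
                    have hg := hp' (hle.trans hzy)
                    rw [hsub, Multiset.erase_add_left_pos _ (by simpa using hytl),
                      Multiset.coe_erase] at hB
                    have h12 := Cov.swap (r := z0) (y := z)
                      (Multiset.mem_add.2 (Or.inl (by simpa using hz0)))
                      (Multiset.mem_add.2 (Or.inl (by simpa using hztl))) hle hB
                    rw [Multiset.erase_add_left_pos _ (by simpa using hz0), Multiset.coe_erase] at h12
                    exact ih _ j k' (fun w hw => hltl w
                      (List.mem_of_mem_erase (List.mem_of_mem_erase hw))) hg h12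

end sound

end Vale.Agent.P302
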