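import Vale.Agent.P302.GInst

namespace Vale.Agent.P302

open Multiset

/-- bin capacity -/
def capH : ℕ := 360000

/-- six pieces larger than half a bin; each leaves room for two small pieces -/
def BsH : List ℕ := [268117, 268114, 268101, 268080, 268010, 268006]

/-- the large pieces of the core: two frame pieces and thirteen pieces close to a third -/
def bigsH : List ℕ :=
  [208000, 157000, 121400, 121400, 121200, 121100, 121000, 120200, 120200, 120000, 119900,
   119200, 119200, 117800, 117600]

/-- the perturbed small pieces -/
def ownH : List ℕ := [45996, 45995, 45993, 45965, 45960, 45944, 45943, 45930, 45908]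

/-- all 35 pieces -/
def itemsH : List ℕ := BsH ++ (bigsH ++ (ownH ++ List.replicate 5 46000))

/-- a fractional solution of the configuration LP, weights in units of 1/72 -/
def patsH : List (List ℕ × ℕ) :=
  [([268101, 45965, 45930], 32), ([268101, 45944, 45944], 24), ([268101, 45930, 45960], 16),
   ([268010, 46000, 45965], 12), ([268010, 45995, 45995], 36), ([268010, 45993, 45996], 24),
   ([268117, 45908, 45965], 28), ([268117, 45944, 45930], 24), ([268114, 45943, 45943], 36),
   ([268080, 46000, 45908], 44), ([268080, 45960, 45960], 28), ([268006, 46000, 45993], 48),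
   ([268006, 45996, 45996], 24), ([268117, 46000], 20), ([268114, 46000], 36),
   ([208000, 121400], 22), ([208000, 46000, 46000, 46000], 50), ([157000, 157000, 46000], 36),
   ([121400, 121400, 46000, 46000], 7), ([121400, 121000, 117600], 48),
   ([121400, 120200, 117800], 12), ([121400, 119200, 119200], 48),
   ([121200, 121200, 117600], 24), ([121200, 121000, 117800], 24),
   ([121100, 121100, 117800], 36), ([120200, 120200, 119200], 48),
   ([120200, 119900, 119900], 36), ([120000, 120000, 120000], 24)]

theorem coreH : packB capH 6 (bigsH ++ List.replicate (3 + 1) 45908) = false := by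
  decide +kernel

theorem gadgetH : packB capH BsH.length (BsH ++ (List.replicate 2 46000 ++ ownH)) = false := by
  decide +kernel

theorem not_packsH : ¬ Packs (mkInst capH itemsH) 12 := by
  intro h
  have h1 := packsN_of_packs capH (by decide) itemsH 12 h
  exact not_packsN_of_split capH 268000 92000 45908 46000 BsH bigsH ownH 5 6 3 2
    (by decide) (by decide) (by decide) (by decide) (by decide) (by decide) (by decide)
    coreH gadgetH h1

theorem lpH : LP (mkInst capH itemsH) ≤ 847 / 72 := by
  have h := LP_le_of_patterns capH (by decide) itemsH patsH 72 (by decide)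
    (by decide +kernel) (by decide +kernel) (by decide +kernel)
  have e : (((patsH.map (fun p => p.2)).sum : ℕ) : ℝ) = 847 := by
    have : (patsH.map (fun p => p.2)).sum = 847 := by decide +kernel
    rw [this]; norm_num
  rw [e] at h
  calc LP (mkInst capH itemsH) ≤ 847 / ((72 : ℕ) : ℝ) := h
    _ = 847 / 72 := by norm_num

theorem instH : IsInstance (mkInst capH itemsH) :=
  isInstance_mkInst capH itemsH (by decide +kernel)

theorem gapH : (89 : ℝ) / 72 ≤ (OPT (mkInst capH itemsH) : ℝ) - LP (mkInst capH itemsH) := by
  have h1 : 12 < OPT (mkInst capH itemsH) := lt_OPT_of_not_packs instH not_packsH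
  have h2 : (13 : ℝ) ≤ (OPT (mkInst capH itemsH) : ℝ) := by exact_mod_cast h1
  have h3 := lpH
  linarith

end Vale.Agent.P302
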