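import Vale.Agent.P302.LPBound

namespace Vale.Agent.P302

/-- bin capacity of the 32-item instance -/
def L32 : ℕ := 360000

/-- the 32 integer item sizes -/
def items32 : List ℕ :=
  [272117, 272114, 272101, 272080, 272010, 272006, 226000, 178000,
   160000, 158000, 146000, 122000, 120000, 119000, 107000, 107000,
   96000, 44000, 44000, 44000, 44000, 44000, 44000, 43996,
   43995, 43993, 43965, 43960, 43944, 43943, 43930, 43908]

/-- an explicit fractional solution of the configuration LP: patterns with weights over `18` -/
def pats32 : List (List ℕ × ℕ) :=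
  [([178000, 178000], 9),
   ([120000, 120000, 120000], 6),
   ([226000, 122000], 6),
   ([272080, 43960, 43960], 7),
   ([272006, 43996, 43996], 6),
   ([226000, 44000, 44000, 44000], 12),
   ([146000, 107000, 107000], 14),
   ([272114, 44000], 2),
   ([272117, 44000], 12),
   ([158000, 158000, 44000], 9),
   ([160000, 107000, 44000, 44000], 8),
   ([272101, 43944, 43944], 6),
   ([272080, 44000, 43908], 11),
   ([272114, 43943, 43943], 9),
   ([146000, 122000, 44000, 44000], 3),
   ([160000, 146000, 44000], 1),
   ([272010, 44000, 43960], 3),
   ([272101, 43965, 43930], 12),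
   ([272114, 43965, 43908], 6),
   ([272117, 43944, 43930], 6),
   ([160000, 96000, 96000], 9),
   ([272006, 44000, 43993], 12),
   ([272010, 43995, 43995], 9),
   ([122000, 119000, 119000], 9),
   ([272114, 43960, 43908], 1),
   ([272010, 43996, 43993], 6)]

theorem LP32_le : LP (mkInst L32 items32) ≤ (97 : ℝ) / 9 := by
  have h := LP_le_of_patterns L32 (by decide +kernel) items32 pats32 18 (by norm_num)
    (by decide +kernel) (by decide +kernel) (by decide +kernel)
  have e : (pats32.map (fun p => p.2)).sum = 194 := by decide +kernel
  rw [e] at h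
  have e2 : (((194 : ℕ) : ℝ)) / ((18 : ℕ) : ℝ) = (97 : ℝ) / 9 := by norm_num
  rw [e2] at h
  exact h

end Vale.Agent.P302
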