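import Vale.Agent.P302.Bridge

namespace Vale.Agent.P302

open Multiset

theorem sum_fin_map {α : Type*} (l : List α) (F : α → ℝ) :
    ∑ t : Fin l.length, F l[t.1] = (l.map F).sum := by
  induction l with
  | nil => simp
  | cons a l ih =>
    simp only [List.length_cons, List.map_cons, List.sum_cons]
    rw [Fin.sum_univ_succ]
    simp [ih]

theorem list_sum_cast_div {α : Type*} (l : List α) (G : α → ℕ) (Dn : ℕ) :
    (l.map (fun p => ((G p : ℕ) : ℝ) / (Dn : ℝ))).sum = (((l.map G).sum : ℕ) : ℝ) / (Dn : ℝ) := by
  induction l with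
  | nil => simp
  | cons a l ih => simp [ih, add_div]

theorem list_sum_map_div (L : ℕ) (p : List ℕ) :
    (p.map (fun n : ℕ => (n : ℚ) / (L : ℚ))).sum = (p.sum : ℚ) / (L : ℚ) := by
  induction p with
  | nil => simp
  | cons a s ih => simp [ih, add_div]

theorem fq_injective (L : ℕ) (hL : 0 < L) :
    Function.Injective (fun n : ℕ => (n : ℚ) / (L : ℚ)) := by
  intro a b hab
  have hLq : (L : ℚ) ≠ 0 := by exact_mod_cast hL.ne'
  have : (a : ℚ) = b := by
    have h := congrArg (fun x => x * (L : ℚ)) hab
    simpa [div_mul_cancel₀ _ hLq] using h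
  exact_mod_cast this

/-- an explicit fractional solution given by patterns (lists of integer sizes) with integer weights
over a common denominator bounds the LP value -/
theorem LP_le_of_patterns (L : ℕ) (hL : 0 < L) (items : List ℕ) (pats : List (List ℕ × ℕ))
    (Dn : ℕ) (hD : 0 < Dn)
    (hfit : ∀ p ∈ pats, p.1.sum ≤ L)
    (hsub : ∀ p ∈ pats, ∀ x ∈ p.1, x ∈ items)
    (hcov : ∀ x ∈ items, items.count x * Dn ≤ (pats.map (fun p => p.1.count x * p.2)).sum) :
    LP (mkInst L items) ≤ (((pats.map (fun p => p.2)).sum : ℕ) : ℝ) / (Dn : ℝ) := by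
  classical
  let fq : ℕ → ℚ := fun n => (n : ℚ) / (L : ℚ)
  have hinj : Function.Injective fq := fq_injective L hL
  have hLq : (0 : ℚ) < (L : ℚ) := by exact_mod_cast hL
  have hDr : (0 : ℝ) < (Dn : ℝ) := by exact_mod_cast hD
  let c : Fin pats.length → ℚ → ℕ := fun t s => (pats[t.1].1.map fq).count s
  let z : Fin pats.length → ℝ := fun t => (pats[t.1].2 : ℝ) / (Dn : ℝ)
  have hmemI : ∀ x, x ∈ items → fq x ∈ mkInst L items := by
    intro x hx
    simp only [mkInst, Multiset.mem_coe, List.mem_map]
    exact ⟨x, hx, rfl⟩
  have hcover : IsFracCover (mkInst L items) pats.length c z := by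
    refine ⟨?_, ?_, ?_⟩
    · intro t
      have hp : pats[t.1] ∈ pats := List.getElem_mem t.2
      refine ⟨?_, ?_⟩
      · intro s hs
        apply List.count_eq_zero_of_not_mem
        intro hmem
        obtain ⟨x, hx, rfl⟩ := List.mem_map.1 hmem
        exact hs (hmemI x (hsub _ hp x hx))
      · have hsubset : (pats[t.1].1.map fq).toFinset ⊆ (mkInst L items).toFinset := by
          intro s hs
          rw [List.mem_toFinset] at hs
          obtain ⟨x, hx, rfl⟩ := List.mem_map.1 hs
          exact Multiset.mem_toFinset.2 (hmemI x (hsub _ hp x hx))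
        have h1 := Finset.sum_list_count_of_subset (pats[t.1].1.map fq) _ hsubset
        have h2 : ∑ s ∈ (mkInst L items).toFinset, s * ((c t s : ℕ) : ℚ)
            = (pats[t.1].1.map fq).sum := by
          rw [h1]
          apply Finset.sum_congr rfl
          intro s _
          simp [c, nsmul_eq_mul, mul_comm]
        rw [h2]
        have h3 : (pats[t.1].1.map fq).sum = (pats[t.1].1.sum : ℚ) / (L : ℚ) :=
          list_sum_map_div L _
        rw [h3, div_le_one hLq]
        exact_mod_cast hfit _ hp
    · intro t
      positivity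
    · intro s hs
      simp only [mkInst, Multiset.mem_coe, List.mem_map] at hs
      obtain ⟨x, hx, rfl⟩ := hs
      have hcI : (mkInst L items).count (fq x) = items.count x := by
        simp only [mkInst, Multiset.coe_count]
        exact List.count_map_of_injective items fq hinj x
      have hct : ∀ t : Fin pats.length, c t (fq x) = pats[t.1].1.count x := by
        intro t
        exact List.count_map_of_injective _ fq hinj x
      have hsum : ∑ t : Fin pats.length, ((c t (fq x) : ℕ) : ℝ) * z t
          = (((pats.map (fun p => p.1.count x * p.2)).sum : ℕ) : ℝ) / (Dn : ℝ) := by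
        have h1 := sum_fin_map pats (fun p => ((p.1.count x * p.2 : ℕ) : ℝ) / (Dn : ℝ))
        have h2 := list_sum_cast_div pats (fun p => p.1.count x * p.2) Dn
        rw [← h2, ← h1]
        apply Finset.sum_congr rfl
        intro t _
        rw [hct t]
        simp only [z]
        push_cast
        ring
      show ((mkInst L items).count (fq x) : ℝ) ≤ _
      rw [hcI, hsum, le_div_iff₀ hDr]
      exact_mod_cast hcov x hx
  have h := LP_le_of_cover hcover
  have hz : ∑ t, z t = (((pats.map (fun p => p.2)).sum : ℕ) : ℝ) / (Dn : ℝ) := by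
    have h1 := sum_fin_map pats (fun p => ((p.2 : ℕ) : ℝ) / (Dn : ℝ))
    have h2 := list_sum_cast_div pats (fun p => p.2) Dn
    rw [← h2, ← h1]
  rw [hz] at h
  exact h

end Vale.Agent.P302
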