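import Vale.Agent.P302.Defs

namespace Vale.Agent.P302

open Multiset

/-- exhaustive search: can the items of the list be put into bins of capacity `L` holding at most
three items each, with at most `h` free slots in total (`true` when the fuel runs out) -/
def search (L : ℕ) : ℕ → List ℕ → ℕ → Bool
  | 0, _, _ => true
  | _ + 1, [], _ => true
  | f + 1, a :: l, h =>
      (decide (2 ≤ h) && search L f l (h - 2)) ||
      (decide (1 ≤ h) && l.any (fun b => decide (a + b ≤ L) && search L f (l.erase b) (h - 1))) ||
      l.any (fun b => (l.erase b).any (fun c =>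
        decide (c ≤ b) && decide (a + b + c ≤ L) && search L f ((l.erase b).erase c) h))

def Packs3 (L : ℕ) (S : Multiset ℕ) (h : ℕ) : Prop :=
  ∃ B : Multiset (Multiset ℕ), B.sum = S ∧ (∀ b ∈ B, b.sum ≤ L ∧ card b ≤ 3) ∧
    (B.map (fun b => 3 - card b)).sum ≤ h

theorem search_of_packs3 (L : ℕ) : ∀ (f : ℕ) (l : List ℕ) (h : ℕ), l.length ≤ f →
    Packs3 L (l : Multiset ℕ) h → search L f l h = true := by
  intro f
  induction f with
  | zero => intro l h _ _; simp [search]
  | succ f ih =>
    intro l h hl hP
    cases l with
    | nil => simp [search]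
    | cons a l =>
      obtain ⟨B, hsum, hB, hh⟩ := hP
      have ha : a ∈ B.sum := by rw [hsum]; simp
      obtain ⟨b0, hb0, hab0⟩ := Multiset.mem_join.1 ha
      obtain ⟨B', rfl⟩ := Multiset.exists_cons_of_mem hb0
      obtain ⟨r, rfl⟩ := Multiset.exists_cons_of_mem hab0
      have hl' : l.length ≤ f := by simpa using hl
      have hb0' := hB _ (Multiset.mem_cons_self _ _)
      have hB' : ∀ b ∈ B', b.sum ≤ L ∧ card b ≤ 3 := fun b hb => hB b (Multiset.mem_cons_of_mem hb)
      have hsum' : r + B'.sum = (l : Multiset ℕ) := by
        have h1 : a ::ₘ (r + B'.sum) = a ::ₘ (l : Multiset ℕ) := by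
          have : (a ::ₘ r) + B'.sum = ((a :: l : List ℕ) : Multiset ℕ) := by simpa using hsum
          rw [Multiset.cons_add] at this
          simpa using this
        exact (Multiset.cons_inj_right a).1 h1
      have hcr : card r ≤ 2 := by
        have := hb0'.2
        simp at this
        omega
      have hh' : (3 - (card r + 1)) + (B'.map (fun b => 3 - card b)).sum ≤ h := by
        simpa using hh
      have hr : card r = 0 ∨ card r = 1 ∨ card r = 2 := by omega
      simp only [search, Bool.or_eq_true, Bool.and_eq_true, decide_eq_true_eq, List.any_eq_true]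
      rcases hr with hr | hr | hr
      · -- a alone
        have hr0 : r = 0 := Multiset.card_eq_zero.1 hr
        subst hr0
        left; left
        simp at hh' hsum'
        refine ⟨by omega, ih l (h - 2) hl' ⟨B', hsum', hB', by omega⟩⟩
      · obtain ⟨b, rfl⟩ := Multiset.card_eq_one.1 hr
        left; right
        simp at hh'
        have hbl : b ∈ l := by
          have : b ∈ (l : Multiset ℕ) := by rw [← hsum']; simp
          simpa using this
        have hrest : B'.sum = ((l.erase b : List ℕ) : Multiset ℕ) := by
          rw [← Multiset.coe_erase, ← hsum']; simp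
        refine ⟨by omega, b, hbl, ?_, ?_⟩
        · have := hb0'.1; simpa using this
        · apply ih _ _ _ ⟨B', hrest, hB', by omega⟩
          have := List.length_erase_of_mem hbl
          omega
      · have hex : ∃ b c : ℕ, r = {b, c} ∧ c ≤ b := by
          obtain ⟨b, c, hbc⟩ := Multiset.card_eq_two.1 hr
          rcases le_total c b with hcb | hcb
          · exact ⟨b, c, hbc, hcb⟩
          · exact ⟨c, b, by rw [hbc, Multiset.pair_comm], hcb⟩
        obtain ⟨b, c, rfl, hcb⟩ := hex
        right
        simp at hh'
        have hbl : b ∈ l := by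
          have : b ∈ (l : Multiset ℕ) := by rw [← hsum']; simp
          simpa using this
        have h1 : ({c} : Multiset ℕ) + B'.sum = ((l.erase b : List ℕ) : Multiset ℕ) := by
          rw [← Multiset.coe_erase, ← hsum']
          simp [Multiset.insert_eq_cons]
        have hcl : c ∈ l.erase b := by
          have : c ∈ ((l.erase b : List ℕ) : Multiset ℕ) := by rw [← h1]; simp
          simpa using this
        have hrest : B'.sum = (((l.erase b).erase c : List ℕ) : Multiset ℕ) := by
          rw [← Multiset.coe_erase, ← h1]; simp
        refine ⟨b, hbl, c, hcl, ⟨hcb, ?_⟩, ?_⟩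
        · have := hb0'.1
          simp [Multiset.insert_eq_cons] at this
          omega
        · apply ih _ _ _ ⟨B', hrest, hB', by omega⟩
          have e1 := List.length_erase_of_mem hbl
          have e2 := List.length_erase_of_mem hcl
          omega

end Vale.Agent.P302
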